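import Vale.Agent.P200.Tern.Rows

/-!
P200: when the lex segment of a slice past the corner of a box in three variables has a large
shadow, it contains the first rows, up to the drop.
-/

namespace Vale.Agent.P200.Chain

open Finset

/-- The sizes of the first `m` rows of a slice `e + 1` past the side `C`. -/
def tops (b e m : ℕ) : ℕ := ∑ i ∈ range m, (b - (e + 1) + i)

lemma tops_mono {b e m m' : ℕ} (h : m ≤ m') : tops b e m ≤ tops b e m' :=
  sum_le_sum_of_subset (range_subset_range.2 h)

lemma tops_succ (b e m : ℕ) : tops b e (m + 1) = tops b e m + (b - (e + 1) + m) :=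
  sum_range_succ _ _

lemma tops_zero (b e : ℕ) : tops b e 0 = 0 := rfl

open Tern in
/-- A step without a set of the wanted size and shadow forces a small drop and a large value. -/
theorem large_of_no_set {A B C e u h : ℕ} (hBC : B ≤ C) (heB : e + 1 ≤ B)
    (hu : u ≤ (Box.sl (u3 A B C) 0 (C + e + 1)).card)
    (hno : ∀ T, T ⊆ Box.sl (u3 A B C) 0 (C + e + 1) → T.card = u → h < (Box.shadow T).card) :
    h ≤ u + e ∧ tops (B + 1) e (h - u) < u := by
  classical
  obtain ⟨G, hG, hGc⟩ := Box.exists_seg _ u hu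
  have hbig := hno G hG.1 hGc
  have hu0 : 0 < u := by
    by_contra h0
    have : G = ∅ := card_eq_zero.1 (by omega)
    simp [this, Box.shadow] at hbig
  set S := (Box.shadow G).filter fun y => y 2 = C with hS
  have hlow : ((Box.shadow G).filter fun y => ¬ y 2 = C).card ≤ G.card := by
    refine card_le_card_of_injOn (fun y => Box.up y 2) (fun y hy => ?_) fun x _ y _ e => ?_
    · simp only [coe_filter, Set.mem_ofPred_eq] at hy
      obtain ⟨i, hi⟩ := Box.mem_shadow.1 hy.1
      obtain ⟨hyb, hys⟩ := mem_u3.1 (Box.shadow_subset hG.1 hy.1)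
      rcases eq_or_ne i 2 with rfl | hi2
      · exact hi
      refine hG.2 _ hi _ (mem_u3.2 ?_) (lex_lt_three ?_)
      · simp [Box.up] at hyb hys ⊢; omega
      · fin_cases i <;> simp [Box.up] at hi2 ⊢
    · rw [← Box.down_up x 2, show Box.up x 2 = Box.up y 2 from e, Box.down_up]
  have hsplit := card_filter_add_card_filter_not (s := Box.shadow G) fun y => y 2 = C
  have hD : h < u + S.card := by rw [hS]; omega
  have hSy : ∀ y ∈ S, y 2 = C ∧ y 0 + y 1 = e ∧ y 0 ≤ A ∧ y 1 ≤ B := fun y hy => by
    obtain ⟨hy1, hy2⟩ := mem_filter.1 hy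
    obtain ⟨⟨h0, h1, -⟩, hys⟩ := mem_u3.1 (Box.shadow_subset hG.1 hy1)
    exact ⟨hy2, by omega, h0, h1⟩
  have hinj : Set.InjOn (fun y : Fin 3 → ℕ => y 0) (S : Set (Fin 3 → ℕ)) := fun x hx y hy e => by
    obtain ⟨a1, a2, -⟩ := hSy x hx
    obtain ⟨b1, b2, -⟩ := hSy y hy
    simp only at e
    funext k
    fin_cases k <;> simp <;> omega
  have hSe : S.card ≤ e + 1 := by
    simpa using card_le_card_of_injOn (t := range (e + 1)) (fun y : Fin 3 → ℕ => y 0)
      (fun y hy => mem_range.2 (show y 0 < e + 1 by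
        obtain ⟨-, h2, -⟩ := hSy y hy; omega)) hinj
  refine ⟨by omega, ?_⟩
  rcases Nat.eq_zero_or_pos S.card with h0 | hpos
  · rw [show h - u = 0 by omega, tops_zero]; exact hu0
  obtain ⟨z, hz, hmax⟩ := exists_max_image S (fun y => y 0) (card_pos.1 hpos)
  obtain ⟨hz2, hzs, hzA, hzB⟩ := hSy z hz
  have hm : S.card ≤ z 0 + 1 := by
    simpa using card_le_card_of_injOn (t := range (z 0 + 1)) (fun y : Fin 3 → ℕ => y 0)
      (fun y hy => mem_range.2 (show y 0 < z 0 + 1 from Nat.lt_succ_of_le (hmax y hy))) hinj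
  -- the point over the last top is in the segment
  set p : Fin 3 → ℕ := ![z 0, z 1 + 1, C] with hp
  have hpG : p ∈ G := by
    obtain ⟨i, hi⟩ := Box.mem_shadow.1 (mem_filter.1 hz).1
    fin_cases i
    · refine hG.2 _ hi _ (mem_vec (by omega)) (lex_lt_three ?_)
      left
      simp [Box.up, p]
    · have : p = Box.up z 1 := by funext k; fin_cases k <;> simp [p, Box.up, hz2]
      rw [this]; exact hi
    · have := (mem_u3.1 (hG.1 hi)).1.2.2
      simp [Box.up, hz2] at this
  -- and so are the rows before it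
  set P := (range (z 0)).sigma fun i => range (B + 1 - (e + 1) + i) with hP
  set F : (Σ _ : ℕ, ℕ) → Fin 3 → ℕ := fun x => ![x.1, e + 1 - x.1 + x.2, C - x.2] with hF
  have hFi : Set.InjOn F (P : Set (Σ _ : ℕ, ℕ)) := fun x _ y _ e => by
    have h0 : x.1 = y.1 := by simpa [F] using congrFun e 0
    have h1 := congrFun e 1
    simp [F, h0] at h1
    exact Sigma.ext h0 (heq_of_eq h1)
  have hmem : ∀ x ∈ P, F x ∈ G ∧ F x ≠ p := fun x hx => by
    simp only [P, mem_sigma, mem_range] at hx
    have hv : F x ∈ Box.sl (u3 A B C) 0 (C + e + 1) := mem_vec (by omega)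
    refine ⟨hG.2 _ hpG _ hv (lex_lt_three (Or.inl ?_)), fun e => ?_⟩
    · simpa [F, p] using hx.1
    · have := congrFun e 0
      simp [F, p] at this
      omega
  have hcard : P.card + 1 ≤ G.card := by
    have hsub : insert p (P.image F) ⊆ G :=
      insert_subset hpG (image_subset_iff.2 fun x hx => (hmem x hx).1)
    have := card_le_card hsub
    rwa [card_insert_of_notMem (by
      simp only [mem_image, not_exists, not_and]; exact fun x hx => (hmem x hx).2),
      card_image_of_injOn hFi] at this
  have hPc : P.card = tops (B + 1) e (z 0) := by simp [P, tops]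
  have := tops_mono (b := B + 1) (e := e) (show h - u ≤ z 0 by omega)
  omega

end Vale.Agent.P200.Chain
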