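import Vale.Agent.P200.Chain.Comb

/-!
P200: sizes of the slices of a box in three variables and of segments reaching height zero.
-/

namespace Vale.Agent.P200.Chain

open Finset Tern

lemma tri (a b : ℕ) : ∀ k, k ≤ a → k ≤ b →
    2 * ((range a ×ˢ range b).filter fun p => p.1 + p.2 < k).card = k * (k + 1) := by
  intro k
  induction k with
  | zero => simp
  | succ k ih =>
    intro ha hb
    have e : ((range a ×ˢ range b).filter fun p => p.1 + p.2 < k + 1) =
        ((range a ×ˢ range b).filter fun p => p.1 + p.2 < k) ∪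
          (range (k + 1)).image (fun i => (i, k - i)) := by
      ext ⟨i, j⟩
      simp only [mem_filter, mem_product, mem_range, mem_union, mem_image, Prod.mk.injEq]
      constructor
      · intro h
        rcases Nat.lt_or_ge (i + j) k with h' | h'
        · exact Or.inl ⟨h.1, h'⟩
        · exact Or.inr ⟨i, by omega, rfl, by omega⟩
      · rintro (h | ⟨x, hx, rfl, rfl⟩)
        · omega
        · omega
    have hd : Disjoint ((range a ×ˢ range b).filter fun p => p.1 + p.2 < k)
        ((range (k + 1)).image fun i => (i, k - i)) := by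
      rw [Finset.disjoint_left]
      intro p h1 h2
      simp only [mem_filter, mem_image, mem_range] at h1 h2
      obtain ⟨x, hx, rfl⟩ := h2
      have := h1.2
      omega
    rw [e, card_union_of_disjoint hd, card_image_of_injective _
      (fun x y h => congrArg Prod.fst h : Function.Injective fun i => (i, k - i)), card_range,
      mul_add, ih (by omega) (by omega)]
    ring

/-- A slice `k` past the side `C`. -/
theorem card_mid {A B C k k' : ℕ} (hs : A + B = C + k + k') (hkA : k ≤ A + 1) (hkB : k ≤ B + 1)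
    (hA : k' ≤ A + 1) (hB : k' ≤ B + 1) :
    2 * (Box.sl (u3 A B C) 0 (C + k)).card + k * (k + 1) + k' * (k' + 1) =
      2 * ((A + 1) * (B + 1)) := by
  classical
  set R := range (A + 1) ×ˢ range (B + 1)
  set T1 := R.filter fun p => p.1 + p.2 < k
  set T2 := R.filter fun p => C + k < p.1 + p.2
  set M := R.filter fun p => k ≤ p.1 + p.2 ∧ p.1 + p.2 ≤ C + k
  have hM : (Box.sl (u3 A B C) 0 (C + k)).card = M.card := by
    refine card_bij' (fun x _ => (x 0, x 1)) (fun p _ => ![p.1, p.2, C + k - p.1 - p.2])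
      (fun x hx => ?_) (fun p hp => ?_) (fun x hx => ?_) (fun p _ => by simp)
    · obtain ⟨hb, hsx⟩ := mem_u3.1 hx
      simp only [M, R, mem_filter, mem_product, mem_range]
      omega
    · simp only [M, R, mem_filter, mem_product, mem_range] at hp
      exact mem_vec (by omega)
    · obtain ⟨-, hsx⟩ := mem_u3.1 hx
      funext i
      fin_cases i <;> simp; omega
  have hT2 : T2.card = (R.filter fun p => p.1 + p.2 < k').card := by
    refine card_bij' (fun p _ => (A - p.1, B - p.2)) (fun p _ => (A - p.1, B - p.2))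
      (fun p hp => ?_) (fun p hp => ?_) (fun p hp => ?_) (fun p hp => ?_)
    all_goals simp only [T2, R, mem_filter, mem_product, mem_range] at hp ⊢
    · omega
    · omega
    · exact Prod.ext (by simp; omega) (by simp; omega)
    · exact Prod.ext (by simp; omega) (by simp; omega)
  have h1 := card_filter_add_card_filter_not (s := R) fun p => p.1 + p.2 < k
  have h2 := card_filter_add_card_filter_not (s := R.filter fun p => ¬ p.1 + p.2 < k)
    fun p => C + k < p.1 + p.2
  have ha : (R.filter fun p => ¬ p.1 + p.2 < k ∧ C + k < p.1 + p.2) = T2 :=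
    filter_congr fun p _ => ⟨And.right, fun h => ⟨by omega, h⟩⟩
  have hb : (R.filter fun p => ¬ p.1 + p.2 < k ∧ ¬ C + k < p.1 + p.2) = M :=
    filter_congr fun p _ => by omega
  rw [filter_filter, filter_filter, ha, hb] at h2
  have h3 := tri (A + 1) (B + 1) k hkA hkB
  have h4 := tri (A + 1) (B + 1) k' hA hB
  have hR : R.card = (A + 1) * (B + 1) := by simp [R]
  change T2.card + M.card = _ at h2
  change T1.card + _ = _ at h1
  change 2 * T1.card = _ at h3
  rw [hM]
  have : 2 * T2.card = k' * (k' + 1) := by rw [hT2]; exact h4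
  omega

/-- A slice at zero height. -/
lemma card_flat_le {A B C e e' : ℕ} (hs : A + B = C + e + 1 + e') :
    (Box.sl (u3 A B 0) 0 (C + e + 1)).card ≤ e' + 1 := by
  refine (card_le_card_of_injOn (t := range (e' + 1)) (fun x => A - x 0) (fun x hx => ?_)
    fun x hx y hy h => ?_).trans_eq (card_range _)
  · obtain ⟨hb, hsx⟩ := mem_u3.1 hx
    exact mem_range.2 (show A - x 0 < e' + 1 by omega)
  · obtain ⟨hb, hsx⟩ := mem_u3.1 hx
    obtain ⟨hb', hsy⟩ := mem_u3.1 hy
    simp only at h
    funext i
    fin_cases i <;> simp <;> omega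

/-- A slice of a thin box. -/
lemma card_thin_le {B C e δ : ℕ} :
    (Box.sl (u3 δ B C) 0 (C + e + 1)).card ≤ tops (B + 1) e (δ + 1) := by
  have : ((range (δ + 1)).sigma fun i => range (B + 1 - (e + 1) + i)).card =
      tops (B + 1) e (δ + 1) := by simp [tops]
  rw [← this]
  refine card_le_card_of_injOn (fun x => (⟨x 0, B - x 1⟩ : Σ _ : ℕ, ℕ)) (fun x hx => ?_)
    fun x hx y hy h => ?_
  · obtain ⟨hb, hsx⟩ := mem_u3.1 hx
    refine Finset.mem_coe.2 (mem_sigma.2 ⟨mem_range.2 (show x 0 < δ + 1 by omega), mem_range.2 ?_⟩)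
    show B - x 1 < B + 1 - (e + 1) + x 0
    omega
  · obtain ⟨hb, hsx⟩ := mem_u3.1 hx
    obtain ⟨hb', hsy⟩ := mem_u3.1 hy
    simp only [Sigma.mk.injEq, heq_eq_eq] at h
    funext i
    fin_cases i <;> simp <;> omega

/-- A segment through a point of height zero contains the rows up to it. -/
lemma seg_rows {A B D t : ℕ} (hD : t ≤ D) {G : Finset (Fin 3 → ℕ)}
    (hG : Box.IsSeg (Box.sl (u3 A B D) 0 t) G) {x : Fin 3 → ℕ} (hx : x ∈ G) (hx2 : x 2 = 0) :
    ∑ i ∈ range (x 0 + 1), min (B + 1) (t + 1 - i) ≤ G.card := by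
  classical
  obtain ⟨hxb, hxs⟩ := mem_u3.1 (hG.1 hx)
  have hP : ((range (x 0 + 1)).sigma fun i => range (min (B + 1) (t + 1 - i))).card =
      ∑ i ∈ range (x 0 + 1), min (B + 1) (t + 1 - i) := by simp
  rw [← hP]
  refine card_le_card_of_injOn (fun p => ![p.1, p.2, t - p.1 - p.2]) (fun p hp => ?_)
    fun p _ p' _ h => ?_
  · simp only [Finset.mem_coe, mem_sigma, mem_range, lt_min_iff] at hp
    have hv : ![p.1, p.2, t - p.1 - p.2] ∈ Box.sl (u3 A B D) 0 t := mem_vec (by omega)
    show ![p.1, p.2, t - p.1 - p.2] ∈ (G : Set (Fin 3 → ℕ))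
    by_cases he : p.1 = x 0 ∧ p.2 = x 1
    · have : ![p.1, p.2, t - p.1 - p.2] = x := funext fun i => by
        fin_cases i <;> simp <;> omega
      rw [this]; exact hx
    · exact hG.2 x hx _ hv (lex_lt_three (by simp; omega))
  · exact Sigma.ext (by simpa using congrFun h 0) (heq_of_eq (by simpa using congrFun h 1))

/-- The rows past the corner lose one more each. -/
lemma rows_sum {b t : ℕ} (hbt : b ≤ t + 1) : ∀ k,
    2 * ((t + 2 - b + k) * b) ≤
      2 * (∑ i ∈ range (t + 2 - b + k), min b (t + 1 - i)) + k * (k + 1) := by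
  intro k
  induction k with
  | zero =>
    rw [Nat.add_zero, zero_mul, Nat.add_zero]
    refine Nat.mul_le_mul_left 2 ((le_of_eq ?_).trans
      (sum_le_sum (f := fun _ => b) fun i hi => ?_))
    · simp
    · rw [mem_range] at hi
      omega
  | succ k ih =>
    rw [← Nat.add_assoc, sum_range_succ, add_one_mul]
    have e : (k + 1) * (k + 1 + 1) = k * (k + 1) + 2 * (k + 1) := by ring
    omega

end Vale.Agent.P200.Chain
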