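import Vale.Agent.P200.Chain.Degree
import Vale.Agent.P200.Tern.Comm

/-!
P200: a plateau of the chain of contractions is killed by a form whose degree is the step of the
plateau: the plateau extends to a free module over the polynomials in one variable, and the form is
a characteristic polynomial.
-/

noncomputable section

namespace Vale.Agent.P200.Chain

open Module Polynomial

variable {K W : Type*} [Field K] [AddCommGroup W] [Module K W]

/-- The linear maps over a factorisation. -/
lemma exists_factor {V Z : Type*} [AddCommGroup V] [Module K V] [AddCommGroup Z] [Module K Z]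
    (f : V →ₗ[K] W) (hf : LinearMap.ker f = ⊥) (g : Z →ₗ[K] W)
    (h : ∀ z, g z ∈ LinearMap.range f) : ∃ k : Z →ₗ[K] V, ∀ z, f (k z) = g z := by
  obtain ⟨r, hr⟩ := LinearMap.exists_leftInverse_of_injective f hf
  refine ⟨r.comp g, fun z => ?_⟩
  obtain ⟨v, hv⟩ := h z
  rw [LinearMap.comp_apply, ← hv, ← LinearMap.comp_apply r f, hr, LinearMap.id_apply]

lemma ker_eq_bot_of_finrank {V : Type*} [AddCommGroup V] [Module K V] [FiniteDimensional K V]
    (f : V →ₗ[K] W) (S : Submodule K W) (h : LinearMap.range f = S)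
    (hd : finrank K V = finrank K S) : LinearMap.ker f = ⊥ := by
  have := LinearMap.finrank_range_add_finrank_ker f
  rw [h] at this
  exact Submodule.finrank_eq_zero.1 (by omega)

/-- The data of a plateau: two successive bijective decompositions. -/
structure Plateau (L X Y : Module.End K W) (E0 : Submodule K W) (δ : ℕ) where
  cb : (Fin δ → K) →ₗ[K] W
  py : E0 →ₗ[K] E0 × (Fin δ → K)
  px : E0 →ₗ[K] E0 × (Fin δ → K)
  xc : (Fin δ → K) →ₗ[K] E0 × (Fin δ → K) × (Fin δ → K)
  inj2 : ∀ z : E0 × (Fin δ → K) × (Fin δ → K),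
    L (L z.1.1) + L (cb z.2.1) + Y (cb z.2.2) = 0 → z = 0
  hy : ∀ u : E0, L (py u).1.1 + cb (py u).2 = Y u.1
  hx : ∀ u : E0, L (px u).1.1 + cb (px u).2 = X u.1
  hc : ∀ a, L (L (xc a).1.1) + L (cb (xc a).2.1) + Y (cb (xc a).2.2) = X (cb a)
  hinj : ∀ u : E0, L u.1 = 0 → u = 0

/-- A plateau gives the decompositions. -/
theorem exists_plateau {L X Y : Module.End K W} (hLX : Commute L X) (hLY : Commute L Y)
    (hXY : Commute X Y) {E0 : Submodule K W} [FiniteDimensional K E0] {δ : ℕ}
    (hsur : E0.map X ≤ E0.map L ⊔ E0.map Y)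
    (hinj0 : ∀ u ∈ E0, L u = 0 → u = 0)
    (hd1 : finrank K ↥(E0.map L ⊔ E0.map Y) = finrank K E0 + δ)
    (hd2 : finrank K ↥((E0.map L ⊔ E0.map Y).map L ⊔ (E0.map L ⊔ E0.map Y).map Y) =
      finrank K ↥(E0.map L ⊔ E0.map Y) + δ) : Nonempty (Plateau L X Y E0 δ) := by
  classical
  set E1 := E0.map L ⊔ E0.map Y with hE1
  set S := (E0.map L).comap E1.subtype
  have hS : finrank K S = finrank K E0 := by
    rw [(Submodule.comapSubtypeEquivOfLe (le_sup_left : E0.map L ≤ E1)).finrank_eq,
      ← LinearMap.range_domRestrict, LinearMap.finrank_range_of_inj]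
    refine (injective_iff_map_eq_zero _).2 fun u hu => Subtype.ext (hinj0 _ u.2 hu)
  have hq : finrank K (↥E1 ⧸ S) = δ := by
    have := Submodule.finrank_quotient_add_finrank S
    omega
  let b := Module.finBasisOfFinrankEq K (↥E1 ⧸ S) hq
  choose cv hcv using fun k => S.mkQ_surjective (b k)
  set cb : (Fin δ → K) →ₗ[K] W :=
    E1.subtype.comp (Fintype.linearCombination K cv) with hcb
  set f1 : E0 × (Fin δ → K) →ₗ[K] W := (L.comp E0.subtype).coprod cb
  set f2 : E0 × (Fin δ → K) × (Fin δ → K) →ₗ[K] W :=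
    (L.comp (L.comp E0.subtype)).coprod ((L.comp cb).coprod (Y.comp cb))
  have hr1 : LinearMap.range f1 = E1 := by
    refine le_antisymm ?_ fun w hw => ?_
    · rintro _ ⟨⟨u, a⟩, rfl⟩
      exact add_mem ((le_sup_left : E0.map L ≤ E1) (Submodule.mem_map_of_mem u.2))
        (Fintype.linearCombination K cv a).2
    · set a : Fin δ → K := b.equivFun (S.mkQ ⟨w, hw⟩)
      have h0 : S.mkQ (Fintype.linearCombination K cv a) = S.mkQ ⟨w, hw⟩ := by
        rw [Fintype.linearCombination_apply, map_sum]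
        simp only [map_smul, hcv]
        exact b.sum_equivFun _
      rw [Submodule.mkQ_apply, Submodule.mkQ_apply, Submodule.Quotient.eq] at h0
      obtain ⟨u, hu, he⟩ := h0
      refine ⟨(-⟨u, hu⟩, a), ?_⟩
      simp only [f1, LinearMap.coprod_apply, LinearMap.comp_apply, Submodule.subtype_apply,
        map_neg, he]
      simp [cb]
  have hk1 : LinearMap.ker f1 = ⊥ := ker_eq_bot_of_finrank f1 E1 hr1 (by
    rw [Module.finrank_prod, finrank_fin_fun, hd1])
  have hr2 : LinearMap.range f2 = E1.map L ⊔ E1.map Y := by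
    refine le_antisymm ?_ (sup_le ?_ ?_)
    · rintro _ ⟨⟨u, a, b'⟩, rfl⟩
      exact add_mem (Submodule.mem_sup_left (Submodule.mem_map_of_mem
        ((le_sup_left : E0.map L ≤ E1) (Submodule.mem_map_of_mem u.2))))
        (add_mem (Submodule.mem_sup_left (Submodule.mem_map_of_mem
          (Fintype.linearCombination K cv a).2))
          (Submodule.mem_sup_right (Submodule.mem_map_of_mem
            (Fintype.linearCombination K cv b').2)))
    · rintro _ ⟨w, hw, rfl⟩
      rw [← hr1] at hw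
      obtain ⟨⟨u, a⟩, rfl⟩ := hw
      exact ⟨(u, a, 0), by simp [f1, f2]⟩
    · rintro _ ⟨w, hw, rfl⟩
      rw [← hr1] at hw
      obtain ⟨⟨u, a⟩, rfl⟩ := hw
      have hmem : Y u.1 ∈ LinearMap.range f1 := by
        rw [hr1]; exact (le_sup_right : E0.map Y ≤ E1) (Submodule.mem_map_of_mem u.2)
      obtain ⟨⟨u', a'⟩, hu'⟩ := hmem
      refine ⟨(u', a', a), ?_⟩
      simp only [f1, f2, LinearMap.coprod_apply, LinearMap.comp_apply, Submodule.subtype_apply,
        map_add] at hu' ⊢
      rw [← Module.End.mul_apply Y L, ← hLY.eq, Module.End.mul_apply, ← hu', map_add]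
      abel
  have hk2 : LinearMap.ker f2 = ⊥ := ker_eq_bot_of_finrank f2 _ hr2 (by
    rw [Module.finrank_prod, Module.finrank_prod, finrank_fin_fun]; omega)
  obtain ⟨py, hpy⟩ := exists_factor f1 hk1 (Y.comp E0.subtype) fun u =>
    hr1.symm ▸ (le_sup_right : E0.map Y ≤ E1) (Submodule.mem_map_of_mem u.2)
  obtain ⟨px, hpx⟩ := exists_factor f1 hk1 (X.comp E0.subtype) fun u =>
    hr1.symm ▸ hsur (Submodule.mem_map_of_mem u.2)
  obtain ⟨xc, hxc⟩ := exists_factor f2 hk2 (X.comp cb) fun a => by
    rw [hr2]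
    have hXE : E1.map X ≤ E1.map L ⊔ E1.map Y := by
      rw [hE1, Submodule.map_sup, ← Submodule.map_comp, ← Submodule.map_comp,
        ← Module.End.mul_eq_comp, ← Module.End.mul_eq_comp, ← hLX.eq, hXY.eq,
        Module.End.mul_eq_comp, Module.End.mul_eq_comp, Submodule.map_comp, Submodule.map_comp]
      exact sup_le_sup (Submodule.map_mono hsur) (Submodule.map_mono hsur)
    exact hXE (Submodule.mem_map_of_mem (Fintype.linearCombination K cv a).2)
  refine ⟨⟨cb, py, px, xc, fun z hz => ?_, hpy, hpx, fun a => ?_,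
    fun u hu => Subtype.ext (hinj0 _ u.2 hu)⟩⟩
  · refine LinearMap.ker_eq_bot'.1 hk2 z ?_
    simpa [f2, add_assoc] using hz
  · simpa [f2, add_assoc] using hxc a

namespace Plateau

variable {L X Y : Module.End K W} {E0 : Submodule K W} {δ : ℕ} (P : Plateau L X Y E0 δ)

/-- The module of the plateau. -/
abbrev Mod (E0 : Submodule K W) (δ : ℕ) := ↥E0 × (Fin δ → K[X])

/-- Constant vectors. -/
def cst (δ : ℕ) : (Fin δ → K) →ₗ[K] (Fin δ → K[X]) :=
  (Polynomial.monomial 0).compLeft (Fin δ)

lemma cst_apply (a : Fin δ → K) (k : Fin δ) : cst δ a k = Polynomial.C (a k) := rfl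

lemma cst_injective : Function.Injective (cst (K := K) δ) := fun a b h => funext fun k => by
  simpa [cst_apply] using congrFun h k

/-- The action of `Y`. -/
def yv : Module.End K (Mod E0 δ) :=
  ((LinearMap.fst K ↥E0 _).comp (P.py.comp (LinearMap.fst K ↥E0 _))).prod
    ((cst δ).comp ((LinearMap.snd K ↥E0 _).comp (P.py.comp (LinearMap.fst K ↥E0 _))) +
      ((LinearMap.mulLeft K (Polynomial.X : K[X])).compLeft (Fin δ)).comp (LinearMap.snd K ↥E0 _))

lemma yv_apply (v : Mod E0 δ) :
    P.yv v = ((P.py v.1).1, fun k => C ((P.py v.1).2 k) + Polynomial.X * v.2 k) := rfl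

/-- The embedding of the first two levels. -/
def two : E0 × (Fin δ → K) × (Fin δ → K) →ₗ[K] Mod E0 δ :=
  (LinearMap.fst K ↥E0 _).prod ((cst δ).comp ((LinearMap.fst K _ _).comp (LinearMap.snd K ↥E0 _)) +
    ((LinearMap.mulLeft K (Polynomial.X : K[X])).compLeft (Fin δ)).comp
      ((cst δ).comp ((LinearMap.snd K _ _).comp (LinearMap.snd K ↥E0 _))))

lemma two_apply (z : E0 × (Fin δ → K) × (Fin δ → K)) :
    (two z : Mod E0 δ) = (z.1, fun k => C (z.2.1 k) + Polynomial.X * C (z.2.2 k)) := rfl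

/-- The action of `X`. -/
def xv : Module.End K (Mod E0 δ) :=
  ((LinearMap.id.prodMap (cst δ)).comp P.px).comp (LinearMap.fst K ↥E0 _) +
    ∑ k, (LinearMap.applyₗ (two (P.xc (Pi.single k 1)))).comp
      ((aeval P.yv).toLinearMap.comp ((LinearMap.proj k).comp (LinearMap.snd K ↥E0 _)))

lemma xv_apply (v : Mod E0 δ) : P.xv v = ((P.px v.1).1, cst δ (P.px v.1).2) +
    ∑ k, aeval P.yv (v.2 k) (two (P.xc (Pi.single k 1))) := by
  simp [xv, LinearMap.sum_apply]

/-- Polynomials in `yv` act by multiplication on the vectors of polynomials. -/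
lemma aeval_snd (q : K[X]) (g : Fin δ → K[X]) :
    aeval P.yv q ((0 : E0), g) = (0, fun k => q * g k) := by
  induction q using Polynomial.induction_on' generalizing g with
  | add p q hp hq =>
    rw [map_add, LinearMap.add_apply, hp, hq]
    simp [add_mul, Pi.add_def]
  | monomial n r =>
    induction n generalizing g with
    | zero => simp [Module.algebraMap_end_apply, Pi.smul_def, smul_eq_C_mul]
    | succ n ih =>
      rw [aeval_monomial, pow_succ', ← mul_assoc, (Algebra.commutes r P.yv), mul_assoc,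
        ← aeval_monomial, Module.End.mul_apply, ih, yv_apply]
      simp [← mul_assoc, ← monomial_one_one_eq_X, monomial_mul_monomial, add_comm 1 n]

lemma aeval_fst (q : K[X]) (v : Mod E0 δ) :
    (aeval P.yv q v).1 = aeval ((LinearMap.fst K ↥E0 _).comp P.py) q v.1 := by
  induction q using Polynomial.induction_on' generalizing v with
  | add p q hp hq => simp [hp, hq]
  | monomial n r =>
    simp only [aeval_monomial, Module.End.mul_apply, Module.algebraMap_end_apply, Prod.smul_fst]
    congr 1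
    induction n generalizing v with
    | zero => rfl
    | succ n ih => rw [pow_succ, pow_succ, Module.End.mul_apply, Module.End.mul_apply, ih]; rfl

/-- The two actions commute. -/
lemma comm (hXY : Commute X Y) (hLX : Commute L X) (hLY : Commute L Y) :
    Commute P.xv P.yv := by
  refine LinearMap.ext fun v => ?_
  have hv : v = (v.1, 0) + (0, v.2) := by simp
  rw [hv, map_add, map_add]
  congr 1
  · set u := v.1
    have key : ∀ (w : E0) (a : Fin δ → K),
        P.yv (w, cst δ a) = two ((P.py w).1, (P.py w).2, a) ∧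
        P.xv (w, cst δ a) = two (((P.px w).1, (P.px w).2, 0) + P.xc a) := by
      intro w a
      refine ⟨rfl, ?_⟩
      rw [xv_apply]
      simp only [cst_apply, aeval_C, Module.algebraMap_end_apply]
      conv_rhs => rw [map_add, pi_eq_sum_univ' a, map_sum, map_sum]
      simp only [map_smul]
      congr 1
      simp [two_apply, Prod.ext_iff, funext_iff, cst_apply]
    have h0 : P.yv (u, 0) = ((P.py u).1, cst δ (P.py u).2) := by
      simp [yv_apply, Prod.ext_iff, funext_iff, cst_apply]
    have h1 : P.xv (u, 0) = ((P.px u).1, cst δ (P.px u).2) := by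
      simp [xv_apply]
    rw [Module.End.mul_apply, Module.End.mul_apply, h0, h1, (key _ _).1, (key _ _).2]
    refine congrArg _ (sub_eq_zero.1 (P.inj2 _ ?_))
    have e1 := congrArg L (P.hx (P.py u).1)
    have e2 := congrArg X (P.hy u)
    have e3 := congrArg L (P.hy (P.px u).1)
    have e4 := congrArg Y (P.hx u)
    have cLX : ∀ w, L (X w) = X (L w) := fun w => LinearMap.congr_fun hLX.eq w
    have cLY : ∀ w, L (Y w) = Y (L w) := fun w => LinearMap.congr_fun hLY.eq w
    have cXY : ∀ w, X (Y w) = Y (X w) := fun w => LinearMap.congr_fun hXY.eq w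
    simp only [map_add, cLX, cLY, cXY] at e1 e2 e3 e4
    have e5 := P.hc (P.py u).2
    simp only [Prod.fst_sub, Prod.snd_sub, Prod.fst_add, Prod.snd_add, Submodule.coe_sub,
      Submodule.coe_add, map_sub, map_add, zero_add]
    linear_combination (norm := abel) e1 + e5 + e2 - e3 - e4
  · rw [Module.End.mul_apply, Module.End.mul_apply, yv_apply, xv_apply, xv_apply]
    simp only [map_zero, Prod.fst_zero, Prod.snd_zero, Pi.zero_apply, map_add, map_sum, zero_add]
    have hz' : ((0 : E0), (0 : Fin δ → K[X])) = 0 := rfl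
    simp only [hz', zero_add, map_zero]
    refine Finset.sum_congr rfl fun k _ => ?_
    rw [map_mul, aeval_X, Module.End.mul_apply]

/-- The vectors of degree below `m`. -/
def deg (E0 : Submodule K W) (δ m : ℕ) : Submodule K (Mod E0 δ) where
  carrier := {v | ∀ k n, m ≤ n → (v.2 k).coeff n = 0}
  add_mem' ha hb k n hn := by simp [ha k n hn, hb k n hn]
  zero_mem' k n _ := by simp
  smul_mem' c v hv k n hn := by simp [hv k n hn]

lemma mem_deg {v : Mod E0 δ} {m : ℕ} : v ∈ deg E0 δ m ↔ ∀ k n, m ≤ n → (v.2 k).coeff n = 0 :=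
  Iff.rfl

lemma coeff_yv (v : Mod E0 δ) (k : Fin δ) (n : ℕ) :
    ((P.yv v).2 k).coeff (n + 1) = (v.2 k).coeff n := by
  simp [yv_apply]

lemma coeff_yv_pow (v : Mod E0 δ) (k : Fin δ) (n s : ℕ) :
    (((P.yv ^ s) v).2 k).coeff (n + s) = (v.2 k).coeff n := by
  induction s with
  | zero => simp
  | succ s ih => rw [pow_succ', Module.End.mul_apply, ← Nat.add_assoc, coeff_yv, ih]

lemma yv_deg {v : Mod E0 δ} {m : ℕ} (hv : v ∈ deg E0 δ m) (s : ℕ) :
    (P.yv ^ s) v ∈ deg E0 δ (m + s) := fun k n hn => by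
  obtain ⟨n', rfl⟩ : ∃ n', n = n' + s := ⟨n - s, by omega⟩
  rw [coeff_yv_pow, hv k n' (by omega)]

lemma two_deg (z : E0 × (Fin δ → K) × (Fin δ → K)) : (two z : Mod E0 δ) ∈ deg E0 δ 2 :=
  fun k n hn => by
    obtain ⟨n', rfl⟩ : ∃ n', n = n' + 2 := ⟨n - 2, by omega⟩
    simp [two_apply]

lemma deg_mono {m m' : ℕ} (h : m ≤ m') : deg E0 δ m ≤ deg E0 δ m' :=
  fun _ hv k n hn => hv k n (h.trans hn)

/-- The homogenised evaluation in degree `m`. -/
def ev (m : ℕ) : Mod E0 δ →ₗ[K] W :=
  ((L ^ m).comp E0.subtype).comp (LinearMap.fst K ↥E0 _) +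
    ∑ r ∈ Finset.range m, ((L ^ (m - 1 - r)) * (Y ^ r)).comp (P.cb.comp
      (((Polynomial.lcoeff K r).compLeft (Fin δ)).comp (LinearMap.snd K ↥E0 _)))

lemma ev_apply (m : ℕ) (v : Mod E0 δ) : P.ev m v = (L ^ m) v.1.1 +
    ∑ r ∈ Finset.range m, (L ^ (m - 1 - r)) ((Y ^ r) (P.cb fun k => (v.2 k).coeff r)) := by
  simp [ev, LinearMap.sum_apply, Module.End.mul_apply, Function.comp_def]
  rfl

lemma ev_yv (hLY : Commute L Y) (m : ℕ) (v : Mod E0 δ) :
    P.ev (m + 1) (P.yv v) = Y (P.ev m v) := by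
  rw [ev_apply, ev_apply, Finset.sum_range_succ']
  simp only [coeff_yv, map_add, map_sum]
  have hc0 : (fun k => ((P.yv v).2 k).coeff 0) = (P.py v.1).2 := funext fun k => by simp [yv_apply]
  have hp : ∀ j w, (L ^ j) (Y w) = Y ((L ^ j) w) := fun j w =>
    LinearMap.congr_fun (hLY.pow_left j).eq w
  rw [hc0, ← hp, ← P.hy v.1, map_add, ← Module.End.mul_apply (L ^ m) L, ← pow_succ]
  simp only [show (P.yv v).1 = (P.py v.1).1 from rfl, pow_succ', Module.End.mul_apply,
    Nat.add_sub_cancel, Nat.sub_zero, pow_zero, Module.End.one_apply]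
  have hs : ∀ (g : ℕ → W), (∑ r ∈ Finset.range m, (L ^ (m - (r + 1))) (Y (g r))) =
      ∑ r ∈ Finset.range m, Y ((L ^ (m - 1 - r)) (g r)) := fun g =>
    Finset.sum_congr rfl fun r _ => by rw [hp, show m - (r + 1) = m - 1 - r by omega]
  rw [hs]
  abel

lemma ev_two (m : ℕ) (z : E0 × (Fin δ → K) × (Fin δ → K)) :
    P.ev (m + 2) (two z) = (L ^ m) (L (L z.1.1) + L (P.cb z.2.1) + Y (P.cb z.2.2)) := by
  rw [ev_apply, Finset.sum_range_succ', Finset.sum_range_succ']
  have e0 : (fun k => ((two z : Mod E0 δ).2 k).coeff 0) = z.2.1 := funext fun k => by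
    simp [two_apply]
  have e1 : (fun k => ((two z : Mod E0 δ).2 k).coeff (0 + 1)) = z.2.2 := funext fun k => by
    simp [two_apply, coeff_C]
  have e2 : ∀ r, (fun k => ((two z : Mod E0 δ).2 k).coeff (r + 1 + 1)) = 0 := fun r =>
    funext fun k => by simp [two_apply]
  simp only [e0, e1, e2, map_zero, Finset.sum_const_zero, zero_add, map_add]
  simp [two_apply, pow_succ, Module.End.mul_apply]
  abel

lemma ev_yv_pow (hLY : Commute L Y) (m s : ℕ) (v : Mod E0 δ) :
    P.ev (m + s) ((P.yv ^ s) v) = (Y ^ s) (P.ev m v) := by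
  induction s with
  | zero => simp
  | succ s ih => rw [pow_succ', pow_succ', Module.End.mul_apply, Module.End.mul_apply,
      ← Nat.add_assoc, ev_yv P hLY, ih]

lemma ev_deg {v : Mod E0 δ} {m : ℕ} (hv : v ∈ deg E0 δ m) (q : ℕ) :
    P.ev (m + q) v = (L ^ q) (P.ev m v) := by
  rw [ev_apply, ev_apply, Finset.sum_range_add, map_add, map_sum, Finset.sum_eq_zero
    (s := Finset.range q) fun r _ => ?_, add_zero]
  · rw [← Module.End.mul_apply (L ^ q), ← pow_add, add_comm q m]
    refine congrArg _ (Finset.sum_congr rfl fun r hr => ?_)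
    rw [Finset.mem_range] at hr
    rw [← Module.End.mul_apply (L ^ q), ← pow_add, show q + (m - 1 - r) = m + q - 1 - r by omega]
  · have : (fun k => (v.2 k).coeff (m + r)) = 0 := funext fun k => hv k _ (by omega)
    rw [this]; simp

/-- `xv` raises the degree by one and lifts `X`. -/
lemma xv_step (hLX : Commute L X) (hLY : Commute L Y) (hXY : Commute X Y) {v : Mod E0 δ} {m : ℕ}
    (hv : v ∈ deg E0 δ m) :
    P.xv v ∈ deg E0 δ (m + 1) ∧ P.ev (m + 1) (P.xv v) = X (P.ev m v) := by
  have hlt : ∀ k, v.2 k = ∑ r ∈ Finset.range m, monomial r ((v.2 k).coeff r) := fun k => by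
    ext n
    simp only [finsetSum_coeff, coeff_monomial, Finset.sum_ite_eq']
    split_ifs with h
    · rfl
    · exact hv k n (by simpa using h)
  have hx : P.xv v = ((P.px v.1).1, cst δ (P.px v.1).2) + ∑ r ∈ Finset.range m,
      (P.yv ^ r) (two (P.xc fun k => (v.2 k).coeff r)) := by
    rw [xv_apply]
    congr 1
    conv_lhs => enter [2, k]; rw [hlt k, map_sum, LinearMap.sum_apply]
    rw [Finset.sum_comm]
    refine Finset.sum_congr rfl fun r _ => ?_
    conv_rhs => rw [pi_eq_sum_univ' (fun k => (v.2 k).coeff r), map_sum, map_sum, map_sum]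
    refine Finset.sum_congr rfl fun k _ => ?_
    rw [map_smul, map_smul, map_smul, aeval_monomial]
    rfl
  rw [hx]
  constructor
  · refine add_mem (fun k n hn => ?_) (sum_mem fun r hr => ?_)
    · obtain ⟨n', rfl⟩ : ∃ n', n = n' + 1 := ⟨n - 1, by omega⟩
      simp [cst_apply]
    · exact deg_mono (by have := Finset.mem_range.1 hr; omega) (P.yv_deg (two_deg _) r)
  · rw [map_add, map_sum, ev_apply P m v, map_add, map_sum]
    congr 1
    · rw [ev_apply, Finset.sum_range_succ']
      simp only [cst_apply, coeff_C, Nat.succ_ne_zero, if_false, if_true, ← Pi.zero_def,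
        map_zero, Finset.sum_const_zero, zero_add, Nat.add_sub_cancel, Nat.sub_zero, pow_zero,
        Module.End.one_apply]
      rw [pow_succ, Module.End.mul_apply, ← map_add, P.hx v.1]
      exact LinearMap.congr_fun (hLX.pow_left m).eq v.1.1
    · refine Finset.sum_congr rfl fun r hr => ?_
      rw [Finset.mem_range] at hr
      rw [show m + 1 = (m - 1 - r + 2) + r by omega, ev_yv_pow P hLY, ev_two, P.hc,
        ← Module.End.mul_apply (Y ^ r), ← (hLY.pow_pow (m - 1 - r) r).eq, Module.End.mul_apply,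
        ← Module.End.mul_apply (Y ^ r) X, ← (hXY.pow_right r).eq, Module.End.mul_apply,
        ← Module.End.mul_apply (L ^ (m - 1 - r)) X, (hLX.pow_left (m - 1 - r)).eq,
        Module.End.mul_apply]

lemma xv_pow (hLX : Commute L X) (hLY : Commute L Y) (hXY : Commute X Y) (u : E0) (p : ℕ) :
    (P.xv ^ p) (u, 0) ∈ deg E0 δ p ∧ P.ev p ((P.xv ^ p) (u, 0)) = (X ^ p) u.1 := by
  induction p with
  | zero => exact ⟨fun k n _ => by simp, by simp [ev_apply]⟩
  | succ p ih =>
    rw [pow_succ', pow_succ', Module.End.mul_apply, Module.End.mul_apply, ← ih.2]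
    exact P.xv_step hLX hLY hXY ih.1

lemma snd_eq_zero_of_aeval {q : K[X]} (hq : q ≠ 0) {v : Mod E0 δ} (h : aeval P.yv q v = 0) :
    v.2 = 0 := by
  funext k
  by_contra hk
  set M := (v.2 k).natDegree
  have h1 : ((aeval P.yv q v).2 k).coeff (M + q.natDegree) = 0 := by rw [h]; simp
  rw [aeval_eq_sum_range, LinearMap.sum_apply, Prod.snd_sum, Finset.sum_apply, finsetSum_coeff,
    Finset.sum_eq_single q.natDegree] at h1
  · simp [coeff_yv_pow] at h1
    rcases h1 with h1 | h1
    · exact hq h1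
    · exact hk (leadingCoeff_eq_zero.1 h1)
  · intro s hs hne
    rw [Finset.mem_range] at hs
    rw [LinearMap.smul_apply, Prod.smul_snd, Pi.smul_apply, coeff_smul,
      show M + q.natDegree = M + q.natDegree - s + s by omega, coeff_yv_pow,
      coeff_eq_zero_of_natDegree_lt (p := v.2 k) (show M < M + q.natDegree - s by omega), smul_zero]
  · simp

/-- No torsion. -/
theorem eq_zero_of_aeval [IsAlgClosed K] [FiniteDimensional K E0] (hLX : Commute L X)
    (hLY : Commute L Y) (hXY : Commute X Y)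
    (hkill : ∀ u ∈ E0, ∀ p r : K, X u = p • L u → Y u = r • L u → u = 0)
    {q : K[X]} (hq : q ≠ 0) {v : Mod E0 δ} (h : aeval P.yv q v = 0) : v = 0 := by
  classical
  have h2 := P.snd_eq_zero_of_aeval hq h
  let T : Submodule K E0 :=
    { carrier := {u | ∃ q : K[X], q ≠ 0 ∧ aeval P.yv q (u, 0) = 0}
      add_mem' := fun {a b} ⟨q₁, h₁, e₁⟩ ⟨q₂, h₂, e₂⟩ => ⟨q₁ * q₂, mul_ne_zero h₁ h₂, by
        rw [show ((a + b, 0) : Mod E0 δ) = (a, 0) + (b, 0) by simp, map_add]
        nth_rw 1 [mul_comm q₁ q₂]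
        rw [map_mul, map_mul, Module.End.mul_apply, Module.End.mul_apply, e₁, e₂]
        simp⟩
      zero_mem' := ⟨1, one_ne_zero, by simp⟩
      smul_mem' := fun c a ⟨q, h₁, e₁⟩ => ⟨q, h₁, by
        rw [show ((c • a, 0) : Mod E0 δ) = c • (a, 0) by simp, map_smul, e₁, smul_zero]⟩ }
  have hmove : ∀ Z : Module.End K (Mod E0 δ), Commute Z P.yv → ∀ u ∈ T,
      (Z (u, 0)).2 = 0 ∧ (Z (u, 0)).1 ∈ T := by
    rintro Z hZ u ⟨q, h₁, e₁⟩
    have e : aeval P.yv q (Z (u, 0)) = 0 := by
      rw [← Module.End.mul_apply, ← (Algebra.commute_of_mem_adjoin_singleton_of_commute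
        (aeval_mem_adjoin_singleton K P.yv) hZ).eq, Module.End.mul_apply, e₁, map_zero]
    have hz := P.snd_eq_zero_of_aeval h₁ e
    exact ⟨hz, q, h₁, by rwa [show ((Z (u, 0)).1, (0 : Fin δ → K[X])) = Z (u, 0) from
      Prod.ext rfl hz.symm]⟩
  have hy : ∀ u ∈ T, (P.py u).2 = 0 ∧ (P.py u).1 ∈ T := fun u hu => by
    obtain ⟨ha, hb⟩ := hmove P.yv (Commute.refl _) u hu
    refine ⟨cst_injective (funext fun k => ?_), hb⟩
    simpa [yv_apply, cst_apply] using congrFun ha k
  have hx : ∀ u ∈ T, (P.px u).2 = 0 ∧ (P.px u).1 ∈ T := fun u hu => by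
    obtain ⟨ha, hb⟩ := hmove P.xv (P.comm hXY hLX hLY) u hu
    rw [show P.xv (u, 0) = ((P.px u).1, cst δ (P.px u).2) by simp [xv_apply]] at ha hb
    exact ⟨cst_injective (ha.trans (map_zero _).symm), hb⟩
  have hv : v.1 ∈ T := ⟨q, hq, by rwa [show ((v.1, 0) : Mod E0 δ) = v from Prod.ext rfl h2.symm]⟩
  suffices hT : T = ⊥ by
    rw [hT, Submodule.mem_bot] at hv
    exact Prod.ext hv h2
  by_contra hT
  have : Nontrivial T := Submodule.nontrivial_iff_ne_bot.2 hT
  let ay : Module.End K T := (((LinearMap.fst K ↥E0 _).comp P.py).restrict fun u hu => (hy u hu).2)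
  let ax : Module.End K T := (((LinearMap.fst K ↥E0 _).comp P.px).restrict fun u hu => (hx u hu).2)
  have hc : ax * ay - ay * ax = 0 := LinearMap.ext fun u => by
    have e := LinearMap.congr_fun (P.comm hXY hLX hLY).eq ((u.1, 0) : Mod E0 δ)
    have h0 : ∀ w ∈ T, P.yv (w, 0) = ((P.py w).1, 0) ∧ P.xv (w, 0) = ((P.px w).1, 0) :=
      fun w hw => ⟨by simp [yv_apply, (hy w hw).1, Prod.ext_iff, funext_iff],
        by simp [xv_apply, (hx w hw).1]⟩
    rw [Module.End.mul_apply, Module.End.mul_apply, (h0 _ u.2).1, (h0 _ u.2).2,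
      (h0 _ (hy _ u.2).2).2, (h0 _ (hx _ u.2).2).1] at e
    simp only [LinearMap.sub_apply, Module.End.mul_apply, LinearMap.zero_apply, sub_eq_zero]
    exact Subtype.ext (congrArg (fun z : Mod E0 δ => z.1) e :)
  obtain ⟨u, hu0, p, r, hp, hr⟩ := Tern.exists_common_eigenvector ax ay (by
    rw [hc, LinearMap.range_zero, finrank_bot]; omega)
  have hpr : X u.1.1 = p • L u.1.1 ∧ Y u.1.1 = r • L u.1.1 := by
    have hp' : (P.px u.1).1.1 = p • u.1.1 := congrArg (fun z : T => z.1.1) hp
    have hr' : (P.py u.1).1.1 = r • u.1.1 := congrArg (fun z : T => z.1.1) hr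
    refine ⟨?_, ?_⟩
    · rw [← P.hx u.1, (hx _ u.2).1, map_zero, add_zero, hp', map_smul]
    · rw [← P.hy u.1, (hy _ u.2).1, map_zero, add_zero, hr', map_smul]
  exact hu0 (Subtype.ext (Subtype.ext (hkill _ u.1.2 p r hpr.1 hpr.2)))

variable [IsAlgClosed K] [FiniteDimensional K E0]

/-- The form of the plateau. -/
theorem exists_form (P : Plateau L X Y E0 δ) (hLX : Commute L X) (hLY : Commute L Y) (hXY : Commute X Y)
    (hkill : ∀ u ∈ E0, ∀ p r : K, X u = p • L u → Y u = r • L u → u = 0) :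
    ∃ c : ℕ → K[X], c 0 = 1 ∧ (∀ r ≤ δ, (c r).natDegree ≤ r) ∧ ∀ u ∈ E0,
      ∑ r ∈ Finset.range (δ + 1), ∑ s ∈ Finset.range (r + 1),
        (c r).coeff s • (Y ^ s) ((L ^ (r - s)) ((X ^ (δ - r)) u)) = 0 := by
  classical
  let M := Module.AEval' P.yv
  let of : Mod E0 δ ≃ₗ[K] M := Module.AEval'.of P.yv
  have hsm : ∀ (q : K[X]) v, q • of v = of (aeval P.yv q v) := fun q v =>
    (Module.AEval.of_aeval_smul (R := K) (M := Mod E0 δ) (a := P.yv) q v).symm
  have hsurj := of.surjective
  have : Module.IsTorsionFree K[X] M := ⟨fun q hq a b hab => by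
    obtain ⟨z, hz⟩ := hsurj (a - b)
    have h0 : q • (a - b) = 0 := by rw [smul_sub]; exact sub_eq_zero.2 hab
    rw [← hz, hsm, map_eq_zero_iff _ of.injective] at h0
    rw [P.eq_zero_of_aeval hLX hLY hXY hkill hq.ne_zero h0, map_zero] at hz
    exact sub_eq_zero.1 hz.symm⟩
  -- the vectors of polynomials
  let j : (Fin δ → K[X]) →ₗ[K[X]] M :=
    { toFun := fun f => of (0, f)
      map_add' := fun f g => by rw [← map_add]; simp
      map_smul' := fun q f => by
        rw [RingHom.id_apply, hsm, aeval_snd]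
        simp [Pi.smul_def] }
  have hj : Function.Injective j := fun f g e => (Prod.mk.injEq _ _ _ _ ▸ of.injective e).2
  let bE := Module.finBasis K E0
  have : Module.Finite K[X] M := by
    refine Module.Finite.of_surjective
      ((Fintype.linearCombination K[X] fun i => of (bE i, 0)).coprod j) fun m => ?_
    obtain ⟨⟨u, f⟩, rfl⟩ := hsurj m
    refine ⟨(fun i => C (bE.equivFun u i), f), ?_⟩
    simp only [LinearMap.coprod_apply, Fintype.linearCombination_apply, hsm, ← map_sum]
    show of _ + of (0, f) = _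
    rw [← map_add]
    congr 1
    simp [Prod.ext_iff, Prod.fst_sum, Prod.snd_sum, bE.sum_repr]
  -- a monic polynomial pushing everything into them
  let ybar : Module.End K E0 := (LinearMap.fst K ↥E0 _).comp P.py
  set p := ybar.charpoly with hp
  have hp0 : p ≠ 0 := (LinearMap.charpoly_monic ybar).ne_zero
  have hpv : ∀ v, (aeval P.yv p v).1 = 0 := fun v => by
    rw [aeval_fst]
    show (aeval ybar ybar.charpoly) v.1 = 0
    rw [LinearMap.aeval_self_charpoly]; rfl
  let κ : M →ₗ[K[X]] (Fin δ → K[X]) :=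
    { toFun := fun m => (aeval P.yv p (of.symm m)).2
      map_add' := fun a b => by simp
      map_smul' := fun q m => by
        obtain ⟨v, rfl⟩ := hsurj m
        rw [hsm, of.symm_apply_apply, of.symm_apply_apply, RingHom.id_apply, ← Module.End.mul_apply,
          ← map_mul, mul_comm, map_mul, Module.End.mul_apply,
          show aeval P.yv p v = ((0 : E0), (aeval P.yv p v).2) from Prod.ext (hpv v) rfl, aeval_snd]
        rfl }
  have hjκ : ∀ m, j (κ m) = p • m := fun m => by
    obtain ⟨v, rfl⟩ := hsurj m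
    rw [hsm]
    show of ((0 : E0), (aeval P.yv p (of.symm (of v))).2) = _
    rw [of.symm_apply_apply]
    exact congrArg of (Prod.ext (hpv v).symm rfl)
  have hκ : Function.Injective κ := fun a b e => by
    have := congrArg j e
    rw [hjκ, hjκ] at this
    exact smul_right_injective M hp0 this
  have : Module.Free K[X] M := Module.free_of_finite_type_torsion_free'
  have hrank : finrank K[X] M = δ := le_antisymm
    ((LinearMap.finrank_le_finrank_of_injective hκ).trans_eq (finrank_fin_fun _))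
    ((finrank_fin_fun K[X]).symm.trans_le (LinearMap.finrank_le_finrank_of_injective hj))
  let b := Module.finBasisOfFinrankEq K[X] M hrank
  let mx : M →ₗ[K[X]] M := LinearMap.ofAEval P.yv (of.toLinearMap.comp P.xv) fun v => by
    show of (P.xv (P.yv v)) = (Polynomial.X : K[X]) • of (P.xv v)
    rw [hsm, aeval_X]
    exact congrArg of (LinearMap.congr_fun (P.comm hXY hLX hLY).eq v)
  have hmx : ∀ v, mx (of v) = of (P.xv v) := fun v =>
    congrArg (fun w => of (P.xv w)) (of.symm_apply_apply v)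
  have hmxp : ∀ (n : ℕ) v, (mx ^ n) (of v) = of ((P.xv ^ n) v) := fun n v => by
    induction n with
    | zero => rfl
    | succ n ih => rw [pow_succ', pow_succ', Module.End.mul_apply, Module.End.mul_apply, ih, hmx]
  let bs := Pi.basisFun K[X] (Fin δ)
  set R := LinearMap.toMatrix bs bs (κ.comp (mx.comp j))
  set S := LinearMap.toMatrix bs b j
  set A := LinearMap.toMatrix b b mx
  have hS : S.det ≠ 0 := fun e => by
    obtain ⟨v, hv, hv0⟩ := Matrix.exists_mulVec_eq_zero_iff.2 e
    refine hv (hj (b.equivFun.injective ?_))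
    rw [map_zero, map_zero]
    refine Eq.trans ?_ hv0
    exact (LinearMap.toMatrix_mulVec_repr bs b j v).symm
  have hint : S * R = (p • A) * S := by
    rw [← map_smul, ← LinearMap.toMatrix_comp, ← LinearMap.toMatrix_comp]
    congr 1
    exact LinearMap.ext fun f => hjκ _
  have hR : ∀ k l, (R k l).natDegree ≤ p.natDegree + 1 := fun k l => by
    have e : R k l = (aeval P.yv p (two (P.xc (Pi.single l 1)))).2 k := by
      have e1 : P.xv (0, Pi.single l 1) = two (P.xc (Pi.single l 1)) := by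
        rw [xv_apply, Finset.sum_eq_single l (fun k _ hk => by simp [hk]) (by simp)]
        simp [cst]
      have e2 : mx (j (Pi.single l 1)) = of (two (P.xc (Pi.single l 1))) := by
        rw [← e1]; exact hmx _
      rw [show R k l = (κ (mx (j (bs l)))) k from LinearMap.toMatrix_apply bs bs _ k l,
        show bs l = Pi.single l 1 from Pi.basisFun_apply K[X] (Fin δ) l]
      rw [e2]
      exact congrArg (fun w => (aeval P.yv p w).2 k) (of.symm_apply_apply _)
    rw [e, natDegree_le_iff_coeff_eq_zero]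
    intro n hn
    rw [aeval_eq_sum_range, LinearMap.sum_apply, Prod.snd_sum, Finset.sum_apply, finsetSum_coeff]
    refine Finset.sum_eq_zero fun s hs => ?_
    rw [Finset.mem_range] at hs
    rw [LinearMap.smul_apply, Prod.smul_snd, Pi.smul_apply, coeff_smul,
      P.yv_deg (two_deg _) s k n (by omega), smul_zero]
  have hcp : mx.charpoly = A.charpoly := (LinearMap.charpoly_toMatrix mx b).symm
  have hdegA : mx.charpoly.natDegree = δ := by
    rw [hcp, Matrix.charpoly_natDegree_eq_dim, Fintype.card_fin]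
  have hdeg : ∀ r ≤ δ, (A.charpoly.coeff (δ - r)).natDegree ≤ r := fun r hr => by
    rcases eq_or_ne (A.charpoly.coeff (δ - r)) 0 with h0 | h0
    · simp [h0]
    have h := natDegree_coeff_charpoly R hR (δ - r)
    rw [charpoly_eq_of_intertwine hS hint, coeff_charpoly_smul A hp0 (Nat.sub_le _ _),
      natDegree_mul (pow_ne_zero _ hp0) h0, natDegree_pow, Nat.sub_sub_self hr] at h
    rw [add_one_mul, mul_comm p.natDegree] at h
    omega
  refine ⟨fun r => A.charpoly.coeff (δ - r), ?_, hdeg, fun u hu => ?_⟩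
  · have := (LinearMap.charpoly_monic mx).coeff_natDegree
    simpa [hdegA, ← hcp] using this
  · have h := LinearMap.congr_fun (LinearMap.aeval_self_charpoly mx) (of (⟨u, hu⟩, 0))
    rw [hcp, aeval_eq_sum_range, LinearMap.sum_apply, ← hcp, hdegA, LinearMap.zero_apply] at h
    simp only [LinearMap.smul_apply, hmxp, hsm, ← map_sum] at h
    rw [map_eq_zero_iff _ of.injective, hcp] at h
    have h' := congrArg (P.ev δ) h
    rw [map_zero, map_sum, ← Finset.sum_range_reflect] at h'
    refine Eq.trans (Finset.sum_congr rfl fun r hr => ?_) h'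
    rw [Finset.mem_range] at hr
    show _ = P.ev δ (aeval P.yv (A.charpoly.coeff (δ + 1 - 1 - r)) ((P.xv ^ (δ + 1 - 1 - r)) _))
    simp only [Nat.add_sub_cancel]
    rw [aeval_eq_sum_range' (Nat.lt_succ_of_le (hdeg r (by omega))), LinearMap.sum_apply, map_sum]
    refine Finset.sum_congr rfl fun s hs => ?_
    rw [Finset.mem_range] at hs
    rw [LinearMap.smul_apply, map_smul]
    obtain ⟨hmem, hev⟩ := P.xv_pow hLX hLY hXY ⟨u, hu⟩ (δ - r)
    congr 1
    have e : δ - r + (r - s) + s = δ := by omega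
    have hh := P.ev_yv_pow hLY (δ - r + (r - s)) s ((P.xv ^ (δ - r)) (⟨u, hu⟩, 0))
    rw [ev_deg P hmem, hev] at hh
    exact hh.symm.trans (congrArg (fun m => P.ev m _) e)

end Plateau

end Vale.Agent.P200.Chain
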