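import Mathlib

/-!
P200: degrees of the coefficients of the characteristic polynomial of a matrix of polynomials.
-/

noncomputable section

namespace Vale.Agent.P200.Chain

open Polynomial

variable {K : Type*} [Field K] {w : ℕ}

/-- The coefficient of `Z ^ m` has degree at most `w * (N - m)`, and is zero beyond `N`. -/
def WDeg (w N : ℕ) (q : K[X][X]) : Prop :=
  ∀ m, (N < m → q.coeff m = 0) ∧ (q.coeff m).natDegree ≤ w * (N - m)

lemma WDeg.mul {N M : ℕ} {p q : K[X][X]} (hp : WDeg w N p) (hq : WDeg w M q) :
    WDeg w (N + M) (p * q) := fun m => by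
  rw [coeff_mul]
  refine ⟨fun hm => Finset.sum_eq_zero fun x hx => ?_, natDegree_sum_le_of_forall_le _ _ fun x hx => ?_⟩
  · rw [Finset.HasAntidiagonal.mem_antidiagonal] at hx
    rcases Nat.lt_or_ge N x.1 with h | h
    · rw [(hp x.1).1 h, zero_mul]
    · rw [(hq x.2).1 (by omega), mul_zero]
  · rw [Finset.HasAntidiagonal.mem_antidiagonal] at hx
    by_cases h1 : N < x.1
    · simp [(hp x.1).1 h1]
    by_cases h2 : M < x.2
    · simp [(hq x.2).1 h2]
    refine natDegree_mul_le.trans ((add_le_add (hp x.1).2 (hq x.2).2).trans_eq ?_)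
    rw [← mul_add]
    congr 1
    omega

lemma WDeg.prod {ι : Type*} (s : Finset ι) (f : ι → K[X][X]) (h : ∀ i ∈ s, WDeg w 1 (f i)) :
    WDeg w s.card (∏ i ∈ s, f i) := by
  classical
  induction s using Finset.induction_on with
  | empty =>
    intro m
    rcases m with _ | m
    · simp
    · simp [coeff_one]
  | insert a s ha ih =>
    rw [Finset.prod_insert ha, Finset.card_insert_of_notMem ha, add_comm]
    exact (h a (Finset.mem_insert_self _ _)).mul (ih fun i hi => h i (Finset.mem_insert_of_mem hi))

lemma natDegree_coeff_charpoly {δ : ℕ} (R : Matrix (Fin δ) (Fin δ) K[X])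
    (hR : ∀ i j, (R i j).natDegree ≤ w) (m : ℕ) :
    (R.charpoly.coeff m).natDegree ≤ w * (δ - m) := by
  rw [Matrix.charpoly, Matrix.det_apply, finsetSum_coeff]
  refine natDegree_sum_le_of_forall_le _ _ fun σ _ => ?_
  have h := (WDeg.prod (w := w) Finset.univ (fun i => R.charmatrix (σ i) i) fun i _ => ?_) m
  · rw [Finset.card_univ, Fintype.card_fin] at h
    rw [coeff_smul]
    rcases Int.units_eq_one_or (Equiv.Perm.sign σ) with e | e <;> rw [e]
    · rw [one_smul]; exact h.2
    · rw [Units.neg_smul, one_smul, natDegree_neg]; exact h.2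
  · intro k
    rcases eq_or_ne (σ i) i with e | e
    · rw [e, Matrix.charmatrix_apply_eq]
      rcases k with _ | _ | k
      · simpa using hR i i
      · simp
      · simp [coeff_X]
    · rw [Matrix.charmatrix_apply_ne _ _ _ e]
      rcases k with _ | k
      · simpa using hR (σ i) i
      · simp

/-- Matrices intertwined by an injective one have the same characteristic polynomial. -/
lemma charpoly_eq_of_intertwine {R : Type*} [CommRing R] [IsDomain R] {δ : ℕ}
    {A B S : Matrix (Fin δ) (Fin δ) R} (hS : S.det ≠ 0) (h : S * A = B * S) :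
    A.charpoly = B.charpoly := by
  have e : S.map C * A.charmatrix = B.charmatrix * S.map C := by
    simp only [Matrix.charmatrix, mul_sub, sub_mul]
    rw [(Matrix.scalar_commute _ (fun r => Commute.all _ r) _).eq]
    simp only [RingHom.mapMatrix_apply, ← Matrix.map_mul, h]
  have e' := congrArg Matrix.det e
  rw [Matrix.det_mul, Matrix.det_mul, mul_comm B.charmatrix.det] at e'
  refine mul_left_cancel₀ ?_ e'
  rw [show (S.map C).det = C S.det from (RingHom.map_det C S).symm]
  simpa using hS

/-- The coefficients for a scalar multiple. -/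
lemma coeff_charpoly_smul {R : Type*} [CommRing R] [IsDomain R] {δ : ℕ}
    (A : Matrix (Fin δ) (Fin δ) R) {P : R} (hP : P ≠ 0) {m : ℕ} (hm : m ≤ δ) :
    (P • A).charpoly.coeff m = P ^ (δ - m) * A.charpoly.coeff m := by
  have h : (P • A).charpoly.comp (C P * X) = C P ^ δ * A.charpoly := by
    rw [Matrix.charpoly, ← coe_compRingHom_apply, RingHom.map_det]
    have e : (compRingHom (C P * X)).mapMatrix (P • A).charmatrix = C P • A.charmatrix := by
      refine Matrix.ext fun i j => ?_
      rcases eq_or_ne i j with rfl | hij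
      · simp [Matrix.charmatrix_apply_eq, mul_sub]
      · simp [Matrix.charmatrix_apply_ne _ _ _ hij]
    rw [e, Matrix.det_smul, Fintype.card_fin, Matrix.charpoly]
  have h' := congrArg (fun q => coeff q m) h
  simp only [comp_C_mul_X_coeff, ← C_pow, coeff_C_mul] at h'
  refine mul_right_cancel₀ (pow_ne_zero m hP) ?_
  rw [h', mul_right_comm, ← pow_add, Nat.sub_add_cancel hm]

end Vale.Agent.P200.Chain
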