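import Vale.Agent.P200.Growth.Linkage

/-!
P200: forms of least degrees inside an ideal which contains three forms without a common zero.
-/

noncomputable section

namespace Vale.Agent.P200.Chain

open MvPolynomial Module Finset Deg Quint Growth

variable {K : Type*} [Field K]

lemma tall_snoc {n k : ℕ} {g : Fin k → MvPolynomial (Fin n) K} {v : MvPolynomial (Fin n) K}
    (hg : Tall g) (hv : ∀ Q ∈ (pre g k).minimalPrimes, v ∉ Q) : Tall (Fin.snoc g v) := by
  intro i hi P hP hle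
  have hsub : pre g (min i k) ≤ P := by
    refine le_trans (Ideal.span_le.2 ?_) hle
    rintro _ ⟨j, hj, rfl⟩
    exact Ideal.subset_span ⟨j.castSucc, lt_of_lt_of_le (show (j : ℕ) < min i k from hj)
      (min_le_left _ _), by simp⟩
  rcases Nat.lt_or_ge k i with hki | hki
  · obtain rfl : i = k + 1 := by omega
    rw [min_eq_right (by omega)] at hsub
    obtain ⟨Q, hQ, hQP⟩ := Ideal.exists_minimalPrimes_le hsub
    have := hQ.1.1
    have hvP : v ∈ P := hle (Ideal.subset_span ⟨Fin.last k, by simp, by simp⟩)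
    have hlt : Q < P := lt_of_le_of_ne hQP fun e => hv Q hQ (e ▸ hvP)
    push_cast
    exact (add_le_add (hg k le_rfl Q hQ.1.1 hQ.1.2) le_rfl).trans
      (Ideal.height_add_one_le_of_lt_of_isPrime hlt)
  · rw [min_eq_left hki] at hsub
    exact hg i hki P hP hsub

lemma tall_one {n : ℕ} {g : MvPolynomial (Fin n) K} (hg : g ≠ 0) : Tall ![g] := by
  intro i hi P hP hle
  interval_cases i
  · simp
  · have hgP : g ∈ P := hle (Ideal.subset_span ⟨0, by simp, by simp⟩)
    have hlt : (⊥ : Ideal (MvPolynomial (Fin n) K)) < P :=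
      bot_lt_iff_ne_bot.2 fun e => hg (by rwa [e, Ideal.mem_bot] at hgP)
    have hb : (⊥ : Ideal (MvPolynomial (Fin n) K)).IsPrime := Ideal.isPrime_bot
    simpa using le_trans (self_le_add_left (1 : ℕ∞) (⊥ : Ideal (MvPolynomial (Fin n) K)).height)
      (Ideal.height_add_one_le_of_lt_of_isPrime hlt)

lemma height_le_of_minimal {n k : ℕ} {g : Fin k → MvPolynomial (Fin n) K}
    {Q : Ideal (MvPolynomial (Fin n) K)} (hQ : Q ∈ (pre g k).minimalPrimes) :
    Q.height ≤ (k : ℕ∞) := by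
  refine (Ideal.height_le_card_of_mem_minimalPrimes_span (Set.toFinite _) hQ).trans ?_
  exact_mod_cast (Set.ncard_image_le (Set.toFinite _)).trans
    ((Set.ncard_le_ncard (Set.subset_univ _) (Set.toFinite _)).trans
      (by rw [Set.ncard_univ, Nat.card_eq_fintype_card, Fintype.card_fin]))

/-- Forms of positive degree generate a proper ideal. -/
lemma span_ne_top {n : ℕ} {S : Set (MvPolynomial (Fin n) K)}
    (hS : ∀ p ∈ S, eval (0 : Fin n → K) p = 0) : Ideal.span S ≠ ⊤ := fun h => by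
  have h1 : (1 : MvPolynomial (Fin n) K) ∈ RingHom.ker (eval (0 : Fin n → K)) :=
    (Ideal.span_le.2 fun p hp => RingHom.mem_ker.2 (hS p hp)) (h ▸ Submodule.mem_top)
  simp at h1

lemma eval_zero_of_homogeneous {n d : ℕ} {p : MvPolynomial (Fin n) K} (hp : p.IsHomogeneous d)
    (hd : 1 ≤ d) : eval (0 : Fin n → K) p = 0 := by
  rw [show eval (0 : Fin n → K) p = coeff 0 p from congrFun (congrArg _ eval_zero) p]
  exact hp.coeff_eq_zero (by simp; omega)

/-- A prime factor of a form vanishes at the origin. -/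
lemma eval_zero_of_prime_dvd {n d : ℕ} {g p : MvPolynomial (Fin n) K} (hg : g.IsHomogeneous d)
    (hg0 : g ≠ 0) (hp : Prime p) (h : p ∣ g) : eval (0 : Fin n → K) p = 0 := by
  classical
  by_contra hc
  have hc' : coeff 0 p ≠ 0 := by
    rwa [show eval (0 : Fin n → K) p = coeff 0 p from congrFun (congrArg _ eval_zero) p] at hc
  obtain ⟨r, rfl⟩ := h
  have hr : r ≠ 0 := fun e => hg0 (by simp [e])
  have hex : ∃ m, homogeneousComponent m r ≠ 0 := by
    by_contra hcon
    simp only [not_exists, not_not] at hcon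
    exact hr (by rw [← sum_homogeneousComponent (φ := r)]; exact sum_eq_zero fun i _ => hcon i)
  set m := Nat.find hex
  have hm : homogeneousComponent m r ≠ 0 := Nat.find_spec hex
  have hcomp : homogeneousComponent m (p * r) = C (coeff 0 p) * homogeneousComponent m r := by
    conv_lhs => rw [← sum_homogeneousComponent (φ := p), Finset.sum_mul, map_sum]
    rw [Finset.sum_eq_single 0]
    · rw [mul_comm, component_mul_homog (homogeneousComponent_isHomogeneous 0 p),
        if_pos (Nat.zero_le _), homogeneousComponent_zero, Nat.sub_zero, mul_comm]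
    · intro j _ hj
      rw [mul_comm, component_mul_homog (homogeneousComponent_isHomogeneous j p)]
      split_ifs with h
      · rw [not_not.1 (Nat.find_min hex (show m - j < m by omega)), zero_mul]
      · rfl
    · simp
  have hmd : m = d := by
    by_contra hne
    rw [homogeneousComponent_of_mem hg, if_neg hne] at hcomp
    exact mul_ne_zero (by simpa using hc') hm hcomp.symm
  have h1 : m ≤ r.totalDegree := by
    by_contra hlt
    exact hm (homogeneousComponent_eq_zero m r (by omega))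
  have h2 := hg.totalDegree_le
  rw [totalDegree_mul_of_isDomain hp.ne_zero hr] at h2
  have h3 : p = C (coeff 0 p) := totalDegree_eq_zero_iff_eq_C.1 (by omega)
  exact hp.not_isUnit (h3 ▸ (isUnit_iff_ne_zero.2 hc').map C)

variable [IsAlgClosed K] {a : Fin 3 → ℕ} {q : Fin 3 → MvPolynomial (Fin 3) K}
  {J : Ideal (MvPolynomial (Fin 3) K)}

/-- A prime of height at most two containing a degree of `J` contains the forms below it. -/
lemma mem_prime_of_piece (hd : ∀ i, (q i).IsHomogeneous (a i)) (hqJ : ∀ i, q i ∈ J)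
    {Q : Ideal (MvPolynomial (Fin 3) K)} [hQ : Q.IsPrime] (hh : Q.height ≤ 2) {t : ℕ}
    (hle : ∀ v ∈ piece J t, v ∈ Q) {i : Fin 3} (hi : a i ≤ t) : q i ∈ Q := by
  obtain ⟨k, hk⟩ : ∃ k, (X k : MvPolynomial (Fin 3) K) ∉ Q := by
    by_contra hc
    simp only [not_exists, not_not] at hc
    have : (3 : ℕ∞) ≤ 2 := (le_height_of_X hc).trans hh
    norm_num at this
  have hm : q i * X k ^ (t - a i) ∈ piece J t := by
    refine mem_piece.2 ⟨J.mul_mem_right _ (hqJ i), ?_⟩
    have := (hd i).mul (isHomogeneous_X_pow (R := K) k (t - a i))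
    rwa [Nat.add_sub_cancel' hi] at this
  exact (hQ.mem_or_mem (hle _ hm)).resolve_right fun h => hk (hQ.mem_of_pow_mem _ h)

/-- Some member of degree `t` completes `m` forms. -/
lemma exists_next (hd : ∀ i, (q i).IsHomogeneous (a i)) (hT : Tall q) (hqJ : ∀ i, q i ∈ J)
    {m : ℕ} (hm : m ≤ 2) {g : Fin m → MvPolynomial (Fin 3) K} {t : ℕ}
    (ht : ∀ i : Fin 3, (i : ℕ) ≤ m → a i ≤ t) :
    ∃ v ∈ piece J t, ∀ Q ∈ (pre g m).minimalPrimes, v ∉ Q := by
  obtain ⟨v, hv, hvQ⟩ := exists_avoid (fun _ : Fin 1 => pre g m) (piece J t) fun _ Q hQ => by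
    by_contra hc
    simp only [not_exists, not_and, not_not] at hc
    have hQp := hQ.1.1
    have hh := height_le_of_minimal hQ
    have hall : pre q (m + 1) ≤ Q := Ideal.span_le.2 (by
      rintro _ ⟨i, hi, rfl⟩
      exact mem_prime_of_piece hd hqJ (hh.trans (by exact_mod_cast hm)) hc
        (ht i (Nat.lt_succ_iff.1 hi)))
    have := (hT (m + 1) (by omega) Q hQp hall).trans hh
    have := Nat.cast_le.1 this
    omega
  exact ⟨v, hv, hvQ 0⟩

open Classical in
/-- The forms of least degrees, and an ideal one step below the third. -/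
theorem exists_seq (hd : ∀ i, (q i).IsHomogeneous (a i)) (hm : Monotone a) (hT : Tall q)
    (hqJ : ∀ i, q i ∈ J) (h0 : ∀ v ∈ piece J 0, v = 0) :
    ∃ (a' b' c' : ℕ) (g : Fin 2 → MvPolynomial (Fin 3) K),
      1 ≤ a' ∧ a' ≤ a 0 ∧ a' ≤ b' ∧ b' ≤ a 1 ∧ b' ≤ c' ∧ c' ≤ a 2 ∧
      (∀ i, g i ∈ J) ∧ (∀ i, (g i).IsHomogeneous (![a', b'] i)) ∧ Tall g ∧
      ∃ I : Ideal (MvPolynomial (Fin 3) K), Homog I ∧ (∀ i, g i ∈ I) ∧
        hilb I (c' - 1) = hilb J (c' - 1) ∧ hilb J c' < hilb I c' := by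
  have hq0 : q 0 ≠ 0 := by
    intro h
    obtain ⟨Q, hQ⟩ : (⊥ : Ideal (MvPolynomial (Fin 3) K)).minimalPrimes.Nonempty :=
      Set.nonempty_iff_ne_empty.2 fun e => bot_ne_top ((Ideal.minimalPrimes_eq_empty_iff _).1 e)
    have hb : Q = ⊥ := le_antisymm (hQ.2 ⟨Ideal.isPrime_bot, le_rfl⟩ bot_le) bot_le
    have h1 := hT 1 (by omega) ⊥ Ideal.isPrime_bot (Ideal.span_le.2 (by
      rintro _ ⟨i, hi, rfl⟩
      obtain rfl : i = 0 := Fin.ext (by simp at hi; simpa using hi)
      simp [h]))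
    simp at h1
  have hex1 : ∃ t, ∃ v ∈ piece J t, v ≠ 0 := ⟨a 0, q 0, mem_piece.2 ⟨hqJ 0, hd 0⟩, hq0⟩
  set a' := Nat.find hex1
  obtain ⟨g₁, hg₁, hg₁0⟩ : ∃ v ∈ piece J a', v ≠ 0 := Nat.find_spec hex1
  have ha'1 : 1 ≤ a' := by
    by_contra h
    refine hg₁0 (h0 _ ?_)
    rwa [show a' = 0 by omega] at hg₁
  have ha'0 : a' ≤ a 0 := Nat.find_min' hex1 ⟨q 0, mem_piece.2 ⟨hqJ 0, hd 0⟩, hq0⟩
  have hT₁ : Tall ![g₁] := tall_one hg₁0
  have hb1 : ∃ v ∈ piece J (a 1), ∀ Q ∈ (pre ![g₁] 1).minimalPrimes, v ∉ Q :=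
    exists_next hd hT hqJ (by omega) fun i hi => hm (Fin.le_def.2 (by simpa using hi))
  have hex2 : ∃ t, a' ≤ t ∧ ∃ v ∈ piece J t, ∀ Q ∈ (pre ![g₁] 1).minimalPrimes, v ∉ Q :=
    ⟨a 1, ha'0.trans (hm (by decide)), hb1⟩
  set b' := Nat.find hex2
  obtain ⟨hab, g₂, hg₂, hg₂Q⟩ := Nat.find_spec hex2
  change a' ≤ b' at hab
  change g₂ ∈ piece J b' at hg₂
  have hb'1 : b' ≤ a 1 := Nat.find_min' hex2 ⟨ha'0.trans (hm (by decide)), hb1⟩
  set g : Fin 2 → MvPolynomial (Fin 3) K := Fin.snoc ![g₁] g₂ with hg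
  have hgT : Tall g := tall_snoc hT₁ hg₂Q
  have hg0 : g 0 = g₁ := rfl
  have hg1 : g 1 = g₂ := rfl
  have hgJ : ∀ i, g i ∈ J := Fin.forall_fin_two.2 ⟨(mem_piece.1 hg₁).1, (mem_piece.1 hg₂).1⟩
  have hgd : ∀ i, (g i).IsHomogeneous (![a', b'] i) :=
    Fin.forall_fin_two.2 ⟨(mem_piece.1 hg₁).2, (mem_piece.1 hg₂).2⟩
  have hc1 : ∃ v ∈ piece J (a 2), ∀ Q ∈ (pre g 2).minimalPrimes, v ∉ Q :=
    exists_next hd hT hqJ le_rfl fun i _ => hm (Fin.le_last i)
  have hex3 : ∃ t, b' ≤ t ∧ ∀ Q ∈ (pre g 2).minimalPrimes, ∃ v ∈ piece J t, v ∉ Q :=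
    ⟨a 2, hb'1.trans (hm (by decide)), fun Q hQ => by
      obtain ⟨v, hv, hvQ⟩ := hc1; exact ⟨v, hv, hvQ Q hQ⟩⟩
  set c' := Nat.find hex3
  obtain ⟨hbc, hcQ⟩ := Nat.find_spec hex3
  change b' ≤ c' at hbc
  change ∀ Q ∈ (pre g 2).minimalPrimes, ∃ v ∈ piece J c', v ∉ Q at hcQ
  have hc'2 : c' ≤ a 2 := Nat.find_min' hex3 ⟨hb'1.trans (hm (by decide)), fun Q hQ => by
    obtain ⟨v, hv, hvQ⟩ := hc1; exact ⟨v, hv, hvQ Q hQ⟩⟩
  -- a small prime containing the degree before the third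
  have hgne : pre g 2 ≠ ⊤ := span_ne_top (by
    rintro _ ⟨i, -, rfl⟩
    refine eval_zero_of_homogeneous (hgd i) ?_
    fin_cases i <;> simp <;> omega)
  obtain ⟨P, hPp, hPh, hPg, hPJ⟩ : ∃ P : Ideal (MvPolynomial (Fin 3) K), P.IsPrime ∧
      P.height ≤ 2 ∧ pre g 2 ≤ P ∧ ∀ v ∈ piece J (c' - 1), v ∈ P := by
    rcases Nat.lt_or_ge b' c' with hlt | hge
    · obtain ⟨Q, hQ, hQJ⟩ : ∃ Q ∈ (pre g 2).minimalPrimes, ∀ v ∈ piece J (c' - 1), v ∈ Q := by
        by_contra hcon
        simp only [not_exists, not_and, not_forall, exists_prop] at hcon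
        exact Nat.find_min hex3 (show c' - 1 < c' by omega) ⟨by omega, hcon⟩
      exact ⟨Q, hQ.1.1, height_le_of_minimal hQ, hQ.1.2, hQJ⟩
    rcases hab.lt_or_eq with hlt | heq
    swap
    · obtain ⟨Q, hQ⟩ := Set.nonempty_iff_ne_empty.2
        fun h => hgne ((Ideal.minimalPrimes_eq_empty_iff _).1 h)
      refine ⟨Q, hQ.1.1, height_le_of_minimal hQ, hQ.1.2, fun v hv => ?_⟩
      have : v = 0 := by
        by_contra hne
        exact Nat.find_min hex1 (show c' - 1 < a' by omega) ⟨v, hv, hne⟩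
      rw [this]
      exact Q.zero_mem
    · obtain ⟨Q, hQ, hQJ⟩ : ∃ Q ∈ (pre ![g₁] 1).minimalPrimes,
          ∀ v ∈ piece J (c' - 1), v ∈ Q := by
        by_contra hcon
        simp only [not_exists, not_and, not_forall, exists_prop] at hcon
        refine Nat.find_min hex2 (show c' - 1 < b' by omega) ⟨by omega, ?_⟩
        obtain ⟨v, hv, hvQ⟩ := exists_avoid (fun _ : Fin 1 => pre ![g₁] 1) (piece J (c' - 1))
          fun _ Q hQ => hcon Q hQ
        exact ⟨v, hv, hvQ 0⟩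
      have hQp := hQ.1.1
      have hgQ : g₁ ∈ Q := hQ.1.2 (Ideal.subset_span ⟨0, by simp, by simp⟩)
      obtain ⟨p, hpQ, hp⟩ := Ideal.IsPrime.exists_mem_prime_of_ne_bot hQp
        fun e => hg₁0 (by rwa [e, Ideal.mem_bot] at hgQ)
      have hspan : Ideal.span {p} = Q := by
        have hpp : (Ideal.span {p}).IsPrime := (Ideal.span_singleton_prime hp.ne_zero).2 hp
        have hle : Ideal.span {p} ≤ Q := (Ideal.span_singleton_le_iff_mem _).2 hpQ
        by_contra hne
        have h1 : (1 : ℕ∞) ≤ (Ideal.span {p}).height := by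
          have := tall_one hp.ne_zero 1 le_rfl _ hpp (Ideal.span_le.2 (by
            rintro _ ⟨i, -, rfl⟩
            fin_cases i
            exact Ideal.mem_span_singleton_self p))
          simpa using this
        have := ((add_le_add h1 le_rfl).trans (Ideal.height_add_one_le_of_lt_of_isPrime
          (lt_of_le_of_ne hle hne))).trans (height_le_of_minimal hQ)
        norm_num at this
      have hdvd : p ∣ g₁ := Ideal.mem_span_singleton.1 (hspan.symm ▸ hgQ)
      have hne : pre ![p, g₂] 2 ≠ ⊤ := span_ne_top (by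
        rintro _ ⟨i, -, rfl⟩
        fin_cases i
        · exact eval_zero_of_prime_dvd (mem_piece.1 hg₁).2 hg₁0 hp hdvd
        · exact eval_zero_of_homogeneous (mem_piece.1 hg₂).2 (ha'1.trans hab))
      obtain ⟨P, hP⟩ := Set.nonempty_iff_ne_empty.2
        fun h => hne ((Ideal.minimalPrimes_eq_empty_iff _).1 h)
      have hPQ : Q ≤ P := hspan ▸ (Ideal.span_singleton_le_iff_mem _).2
        (hP.1.2 (Ideal.subset_span ⟨0, by simp, by simp⟩))
      refine ⟨P, hP.1.1, height_le_of_minimal hP, Ideal.span_le.2 ?_, fun v hv => hPQ (hQJ v hv)⟩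
      rintro _ ⟨i, -, rfl⟩
      fin_cases i
      · exact hPQ hgQ
      · exact hP.1.2 (Ideal.subset_span ⟨1, by simp, rfl⟩)
  -- it is a minimal prime of the pair
  have hPmin : P ∈ (pre g 2).minimalPrimes := by
    obtain ⟨Q, hQ, hQP⟩ := Ideal.exists_minimalPrimes_le hPg
    have := hQ.1.1
    rcases hQP.eq_or_lt with e | hlt
    · exact e ▸ hQ
    · have := ((add_le_add (hgT 2 le_rfl Q hQ.1.1 hQ.1.2) le_rfl).trans
        (Ideal.height_add_one_le_of_lt_of_isPrime hlt)).trans hPh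
      norm_num at this
  obtain ⟨v, hv, hvP⟩ := hcQ P hPmin
  set I := pre g 2 ⊔ Ideal.span (Set.range fun z : piece J (c' - 1) => z.1)
  obtain ⟨hIh, -⟩ := sup_powers (homog_pre (q := g) hgd 2)
    (g := fun z : piece J (c' - 1) => z.1) (N := c' - 1) fun z => (mem_piece.1 z.2).2
  have hIJ : I ≤ J := sup_le (Ideal.span_le.2 (by rintro _ ⟨i, -, rfl⟩; exact hgJ i))
    (Ideal.span_le.2 (by rintro _ ⟨z, rfl⟩; exact (mem_piece.1 z.2).1))
  have hIP : I ≤ P := sup_le hPg (Ideal.span_le.2 (by rintro _ ⟨z, rfl⟩; exact hPJ _ z.2))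
  refine ⟨a', b', c', g, ha'1, ha'0, hab, hb'1, hbc, hc'2, hgJ, hgd, hgT, I, hIh,
    fun i => Submodule.mem_sup_left (Ideal.subset_span ⟨i, i.isLt, rfl⟩), ?_, ?_⟩
  · have : piece I (c' - 1) = piece J (c' - 1) := le_antisymm (inf_le_inf_right _ hIJ) fun z hz =>
      mem_piece.2 ⟨Submodule.mem_sup_right (Ideal.subset_span ⟨⟨z, hz⟩, rfl⟩), (mem_piece.1 hz).2⟩
    rw [hilb, hilb, this]
  · have hle : piece I c' ≤ piece J c' := inf_le_inf_right _ hIJ
    have hlt : piece I c' < piece J c' := lt_of_le_of_ne hle fun e =>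
      hvP (hIP (mem_piece.1 (e.symm ▸ hv : v ∈ piece I c')).1)
    have := Submodule.finrank_lt_finrank_of_lt hlt
    have := hilb_add I c'
    have := hilb_add J c'
    omega

end Vale.Agent.P200.Chain
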