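import Vale.Agent.P200.Chain.Steps
import Vale.Agent.P200.Growth.Linkage

/-!
P200: inverse systems: functionals on a degree, the ideal killing them, and the chain of their
contractions as its Hilbert function.
-/

noncomputable section

namespace Vale.Agent.P200.Chain

open MvPolynomial Module Finset Deg

variable {K : Type*} [Field K] {n : ℕ}

/-- Functionals on the polynomials. -/
abbrev Fun (K : Type*) [Field K] (n : ℕ) := Module.Dual K (MvPolynomial (Fin n) K)

/-- Contraction. -/
def act (p : MvPolynomial (Fin n) K) : Module.End K (Fun K n) := (LinearMap.mulLeft K p).dualMap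

lemma act_apply (p q : MvPolynomial (Fin n) K) (φ : Fun K n) : act p φ q = φ (p * q) := rfl

lemma act_mul (p q : MvPolynomial (Fin n) K) : act (p * q) = act p * act q :=
  LinearMap.ext fun φ => LinearMap.ext fun r => by
    simp only [Module.End.mul_apply, act_apply]
    rw [mul_left_comm, mul_assoc]

lemma act_comm (p q : MvPolynomial (Fin n) K) : Commute (act p) (act q) := by
  rw [Commute, SemiconjBy, ← act_mul, ← act_mul, mul_comm]

lemma act_one : act (1 : MvPolynomial (Fin n) K) = 1 :=
  LinearMap.ext fun φ => LinearMap.ext fun r => by simp [act_apply]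

lemma act_pow (p : MvPolynomial (Fin n) K) (m : ℕ) : act (p ^ m) = act p ^ m := by
  induction m with
  | zero => exact act_one
  | succ m ih => rw [pow_succ, pow_succ, act_mul, ih]

/-- Functionals living in degree `T`. -/
def supp (K : Type*) [Field K] (n T : ℕ) : Submodule K (Fun K n) where
  carrier := {φ | ∀ q, φ q = φ (homogeneousComponent T q)}
  add_mem' ha hb q := by simp only [LinearMap.add_apply]; rw [← ha q, ← hb q]
  zero_mem' q := by simp
  smul_mem' c φ hφ q := by simp only [LinearMap.smul_apply]; rw [← hφ q]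

/-- The component of degree `T`. -/
def compT (K : Type*) [Field K] (n T : ℕ) : MvPolynomial (Fin n) K →ₗ[K] part K n T :=
  (homogeneousComponent T).codRestrict _ fun p => homogeneousComponent_isHomogeneous T p

lemma compT_surjective (T : ℕ) : Function.Surjective (compT K n T) := fun p =>
  ⟨p.1, Subtype.ext (homogeneousComponent_eq_self p.2)⟩

lemma supp_le (T : ℕ) : supp K n T ≤ LinearMap.range (compT K n T).dualMap := fun φ hφ =>
  ⟨φ.comp (part K n T).subtype, LinearMap.ext fun q => (hφ q).symm⟩

instance (T : ℕ) : FiniteDimensional K (supp K n T) := Submodule.finiteDimensional_of_le (supp_le T)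

lemma range_le_supp (T : ℕ) : LinearMap.range (compT K n T).dualMap ≤ supp K n T := by
  rintro _ ⟨ψ, rfl⟩ q
  show ψ (compT K n T q) = ψ (compT K n T (homogeneousComponent T q))
  congr 1
  exact Subtype.ext (homogeneousComponent_eq_self (homogeneousComponent_isHomogeneous T q)).symm

/-- Contraction by a linear form lowers the degree. -/
lemma act_supp {l : MvPolynomial (Fin n) K} (hl : l.IsHomogeneous 1) {T : ℕ} {φ : Fun K n}
    (hφ : φ ∈ supp K n (T + 1)) : act l φ ∈ supp K n T := fun q => by
  rw [act_apply, act_apply, hφ (l * q), component_mul hl]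

/-- Contraction kills degree zero. -/
lemma act_supp_zero {l : MvPolynomial (Fin n) K} (hl : l.IsHomogeneous 1) {φ : Fun K n}
    (hφ : φ ∈ supp K n 0) : act l φ = 0 := LinearMap.ext fun q => by
  rw [act_apply, hφ, mul_comm, component_mul_homog hl, if_neg (by omega), map_zero]
  rfl

/-- The polynomials killing `U`. -/
def ann (U : Submodule K (Fun K n)) : Ideal (MvPolynomial (Fin n) K) where
  carrier := {p | ∀ φ ∈ U, ∀ q, φ (p * q) = 0}
  add_mem' ha hb φ hφ q := by rw [add_mul, map_add, ha φ hφ, hb φ hφ, add_zero]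
  zero_mem' φ _ q := by simp
  smul_mem' c p hp φ hφ q := by
    rw [smul_eq_mul, show c * p * q = p * (c * q) by ring]
    exact hp φ hφ _

lemma ann_anti {U V : Submodule K (Fun K n)} (h : U ≤ V) : ann V ≤ ann U :=
  fun _ hp φ hφ => hp φ (h hφ)

lemma homog_ann {U : Submodule K (Fun K n)} {T : ℕ} (hU : U ≤ supp K n T) : Homog (ann U) := by
  intro p hp d φ hφ q
  rw [hU hφ, mul_comm, component_mul_homog (homogeneousComponent_isHomogeneous d p)]
  split_ifs with h
  · have h1 := hp φ hφ (homogeneousComponent (T - d) q)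
    rw [hU hφ, component_mul_homog (homogeneousComponent_isHomogeneous _ q), if_pos (by omega),
      Nat.sub_sub_self h] at h1
    rw [mul_comm]
    exact h1
  · exact map_zero _

/-- The functionals of degree `T` vanishing on `I`. -/
def perp (I : Ideal (MvPolynomial (Fin n) K)) (T : ℕ) : Submodule K (Fun K n) :=
  (((piece I T).comap (part K n T).subtype).dualAnnihilator).map (compT K n T).dualMap

lemma perp_le_supp (I : Ideal (MvPolynomial (Fin n) K)) (T : ℕ) : perp I T ≤ supp K n T :=
  LinearMap.map_le_range.trans (range_le_supp T)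

lemma finrank_perp (I : Ideal (MvPolynomial (Fin n) K)) (T : ℕ) :
    finrank K (perp I T) = hilb I T := by
  have h1 := Subspace.finrank_add_finrank_dualAnnihilator_eq
    ((piece I T).comap (part K n T).subtype)
  have hle : piece I T ≤ part K n T := inf_le_right
  rw [(Submodule.comapSubtypeEquivOfLe hle).finrank_eq] at h1
  have hinj : Function.Injective (compT K n T).dualMap :=
    LinearMap.dualMap_injective_of_surjective (compT_surjective T)
  rw [perp, ← (Submodule.equivMapOfInjective _ hinj _).finrank_eq]
  have := hilb_add I T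
  omega

lemma le_ann_perp {I : Ideal (MvPolynomial (Fin n) K)} (hI : Homog I) (T : ℕ) :
    I ≤ ann (perp I T) := by
  rintro p hp _ ⟨ψ, hψ, rfl⟩ q
  exact (Submodule.mem_dualAnnihilator ψ).1 hψ _
    (mem_piece.2 ⟨hI _ (I.mul_mem_right q hp) T, homogeneousComponent_isHomogeneous _ _⟩)

/-- Three linear forms spanning the variables. -/
structure Frame (l x y : MvPolynomial (Fin n) K) : Prop where
  hl : l.IsHomogeneous 1
  hx : x.IsHomogeneous 1
  hy : y.IsHomogeneous 1
  span : ∀ k, (X k : MvPolynomial (Fin n) K) ∈ Submodule.span K {l, x, y}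

variable {l x y : MvPolynomial (Fin n) K}

lemma Frame.mem_ideal (hF : Frame l x y) {d : ℕ} {q : MvPolynomial (Fin n) K}
    (hq : q.IsHomogeneous (d + 1)) : q ∈ Ideal.span ({l, x, y} : Set (MvPolynomial (Fin n) K)) := by
  rw [q.as_sum]
  refine Ideal.sum_mem _ fun s hs => ?_
  have hsd : s.degree = d + 1 := by
    by_contra h'
    exact (mem_support_iff.1 hs) (hq.coeff_eq_zero h')
  obtain ⟨k, hk⟩ : ∃ k, s k ≠ 0 := by
    by_contra hc
    simp only [not_exists, not_not] at hc
    have : s = 0 := Finsupp.ext hc
    simp [this] at hsd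
  rw [← tsub_add_cancel_of_le (Finsupp.single_le_iff.2 (Nat.one_le_iff_ne_zero.2 hk)),
    monomial_add_single, pow_one]
  exact Ideal.mul_mem_left _ _ (Submodule.span_le_restrictScalars K _ _ (hF.span k))

/-- A vanishing of the three contractions in positive degree. -/
lemma mem_ann_of_frame (hF : Frame l x y) {U : Submodule K (Fun K n)} {t i : ℕ}
    (hU : U ≤ supp K n (t + (i + 1))) {p : MvPolynomial (Fin n) K} (hp : p.IsHomogeneous t)
    (hl : l * p ∈ ann U) (hx : x * p ∈ ann U) (hy : y * p ∈ ann U) : p ∈ ann U := by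
  intro φ hφ q
  rw [hU hφ, mul_comm, component_mul_homog hp, if_pos (by omega), Nat.add_sub_cancel_left]
  have hle : Ideal.span ({l, x, y} : Set (MvPolynomial (Fin n) K)) ≤ colon (ann U) p := by
    refine Ideal.span_le.2 ?_
    rintro z (rfl | rfl | rfl) <;> rw [SetLike.mem_coe, mem_colon, mul_comm] <;> assumption
  have h := hle (hF.mem_ideal (homogeneousComponent_isHomogeneous (i + 1) q))
  rw [mem_colon] at h
  simpa [mul_comm] using h φ hφ 1

variable (l x y) in
/-- The chain of contractions. -/
abbrev levs (U : Submodule K (Fun K n)) (i : ℕ) : Submodule K (Fun K n) :=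
  lev (act l) (act x) (act y) U i

lemma levs_supp (hF : Frame l x y) {U : Submodule K (Fun K n)} {T : ℕ} (hU : U ≤ supp K n T) :
    ∀ i t, t + i = T → levs l x y U i ≤ supp K n t := by
  intro i
  induction i with
  | zero => intro t ht; rw [show t = T by omega]; exact hU
  | succ i ih =>
    intro t ht
    have h := ih (t + 1) (by omega)
    refine sup_le (sup_le ?_ ?_) ?_ <;> rintro _ ⟨φ, hφ, rfl⟩
    · exact act_supp hF.hl (h hφ)
    · exact act_supp hF.hx (h hφ)
    · exact act_supp hF.hy (h hφ)

/-- A form kills `U` exactly if it vanishes on the matching member of the chain. -/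
lemma mem_ann_iff (hF : Frame l x y) {U : Submodule K (Fun K n)} {T : ℕ} (hU : U ≤ supp K n T) :
    ∀ i t, t + i = T → ∀ p : MvPolynomial (Fin n) K, p.IsHomogeneous t →
      (p ∈ ann U ↔ ∀ φ ∈ levs l x y U i, φ p = 0) := by
  intro i
  induction i with
  | zero =>
    intro t ht p hp
    obtain rfl : t = T := by omega
    refine ⟨fun h φ hφ => by simpa using h φ hφ 1, fun h φ hφ q => ?_⟩
    rw [hU hφ, mul_comm, component_mul_homog hp, if_pos le_rfl, Nat.sub_self,
      homogeneousComponent_zero, ← smul_eq_C_mul, map_smul, h φ hφ, smul_zero]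
  | succ i ih =>
    intro t ht p hp
    have hm : ∀ z : MvPolynomial (Fin n) K, z.IsHomogeneous 1 → (z * p).IsHomogeneous (t + 1) :=
      fun z hz => add_comm 1 t ▸ hz.mul hp
    refine ⟨fun h φ hφ => ?_, fun h => ?_⟩
    · have hgen : ∀ z : MvPolynomial (Fin n) K, z.IsHomogeneous 1 →
          ∀ ψ ∈ levs l x y U i, act z ψ p = 0 := fun z hz ψ hψ =>
        (ih (t + 1) (by omega) (z * p) (hm z hz)).1 ((ann U).mul_mem_left z h) ψ hψ
      have hle : levs l x y U (i + 1) ≤ LinearMap.ker (LinearMap.applyₗ p : Fun K n →ₗ[K] K) := by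
        refine sup_le (sup_le ?_ ?_) ?_ <;> rintro _ ⟨ψ, hψ, rfl⟩
        · exact hgen l hF.hl ψ hψ
        · exact hgen x hF.hx ψ hψ
        · exact hgen y hF.hy ψ hψ
      exact hle hφ
    · refine mem_ann_of_frame hF (t := t) (i := i) (ht ▸ hU) hp ?_ ?_ ?_
      · exact (ih (t + 1) (by omega) _ (hm l hF.hl)).2 fun ψ hψ => h (act l ψ)
          (Submodule.mem_sup_left (Submodule.mem_sup_left (Submodule.mem_map_of_mem hψ)))
      · exact (ih (t + 1) (by omega) _ (hm x hF.hx)).2 fun ψ hψ => h (act x ψ)
          (Submodule.mem_sup_left (Submodule.mem_sup_right (Submodule.mem_map_of_mem hψ)))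
      · exact (ih (t + 1) (by omega) _ (hm y hF.hy)).2 fun ψ hψ => h (act y ψ)
          (Submodule.mem_sup_right (Submodule.mem_map_of_mem hψ))

/-- The Hilbert function of the ideal of `U` is the size of the chain. -/
theorem hilb_ann (hF : Frame l x y) {U : Submodule K (Fun K n)} {T : ℕ} (hU : U ≤ supp K n T)
    {i t : ℕ} (ht : t + i = T) : hilb (ann U) t = finrank K (levs l x y U i) := by
  set N := levs l x y U i
  have hN : N ≤ supp K n t := levs_supp hF hU i t ht
  have : FiniteDimensional K N := Submodule.finiteDimensional_of_le hN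
  set res := (part K n t).subtype.dualMap
  have hinj : Function.Injective (res.domRestrict N) := fun a b hab => Subtype.ext <|
    LinearMap.ext fun q => by
      rw [hN a.2 q, hN b.2 q]
      exact LinearMap.congr_fun hab (compT K n t q)
  have hdim : finrank K (N.map res) = finrank K N := by
    rw [← LinearMap.range_domRestrict, LinearMap.finrank_range_of_inj hinj]
  have hco : (N.map res).dualCoannihilator = (piece (ann U) t).comap (part K n t).subtype := by
    ext p
    rw [Submodule.mem_dualCoannihilator, Submodule.mem_comap, mem_piece]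
    refine ⟨fun h => ⟨(mem_ann_iff hF hU i t ht _ p.2).2 fun φ hφ =>
      h _ (Submodule.mem_map_of_mem hφ), p.2⟩, ?_⟩
    rintro ⟨h, -⟩ _ ⟨φ, hφ, rfl⟩
    exact (mem_ann_iff hF hU i t ht _ p.2).1 h φ hφ
  have h1 := Subspace.finrank_add_finrank_dualCoannihilator_eq (N.map res)
  have hle : piece (ann U) t ≤ part K n t := inf_le_right
  rw [hco, hdim, (Submodule.comapSubtypeEquivOfLe hle).finrank_eq] at h1
  have := hilb_add (ann U) t
  omega

/-- A functional on which the variables are multiples of one form is an evaluation. -/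
theorem eval_of_eigen {T : ℕ} {φ : Fun K n} (hφ : φ ∈ supp K n T) (h0 : φ ≠ 0)
    {w : MvPolynomial (Fin n) K} (hw : w.IsHomogeneous 1) {μ : Fin n → K}
    (hμ : ∀ k, act (X k) φ = μ k • act w φ) :
    (1 ≤ T → eval μ w = 1) ∧ ∀ (g : MvPolynomial (Fin n) K) (j : ℕ), g.IsHomogeneous j → j ≤ T →
      (∀ q, φ (g * q) = 0) → eval μ g = 0 := by
  have haev : ∀ {g : MvPolynomial (Fin n) K} {j : ℕ}, g.IsHomogeneous j →
      aeval (fun i => μ i • w) g = eval μ g • w ^ j := fun {g j} hg => by
    rw [g.as_sum, map_sum, map_sum, Finset.sum_smul]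
    refine Finset.sum_congr rfl fun s hs => ?_
    have hsd : s.degree = j := by
      by_contra h'
      exact (mem_support_iff.1 hs) (hg.coeff_eq_zero h')
    rw [aeval_monomial, eval_monomial, Finsupp.prod_fintype _ _ (fun i => pow_zero _),
      Finsupp.prod_fintype _ _ (fun i => pow_zero _), ← hsd, Finsupp.degree_eq_sum,
      ← Finset.prod_pow_eq_pow_sum, mul_smul, ← Finset.prod_smul, Algebra.smul_def]
    refine congrArg _ (Finset.prod_congr rfl fun i _ => ?_)
    rw [smul_pow]
  have hkey : ∀ g : MvPolynomial (Fin n) K, ∀ q,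
      φ (g * q) = φ (aeval (fun i => μ i • w) g * q) := by
    intro g
    induction g using MvPolynomial.induction_on with
    | C r => intro q; rw [aeval_C]; rfl
    | add g g' hg hg' => intro q; rw [map_add, add_mul, add_mul, map_add, map_add, hg, hg']
    | mul_X g i hg =>
      intro q
      rw [show g * X i * q = X i * (g * q) by ring, ← act_apply, hμ, LinearMap.smul_apply,
        act_apply, show w * (g * q) = g * (w * q) by ring, hg, map_mul (aeval fun i => μ i • w), aeval_X, mul_smul_comm,
        smul_mul_assoc, map_smul]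
      congr 2
      ring
  have htop : φ (w ^ T) ≠ 0 := fun h => h0 <| LinearMap.ext fun q => by
    have := hkey (homogeneousComponent T q) 1
    rw [haev (homogeneousComponent_isHomogeneous T q), mul_one, mul_one, map_smul, h,
      smul_zero] at this
    rw [hφ q, this]
    rfl
  have hhom : ∀ (g : MvPolynomial (Fin n) K) (j : ℕ), g.IsHomogeneous j → j ≤ T →
      φ (g * w ^ (T - j)) = eval μ g * φ (w ^ T) := fun g j hg hj => by
    rw [hkey, haev hg, smul_mul_assoc, map_smul, smul_eq_mul, ← pow_add, Nat.add_sub_cancel' hj]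
  refine ⟨fun hT => ?_, fun g j hg hj h => ?_⟩
  · have := hhom w 1 hw hT
    rw [← pow_succ', Nat.sub_add_cancel hT] at this
    exact (mul_eq_right₀ htop).1 this.symm
  · have := hhom g j hg hj
    rw [h] at this
    exact (mul_eq_zero.1 this.symm).resolve_right htop

/-- In a frame it suffices to know the three contractions. -/
lemma Frame.eigen (hF : Frame l x y) {φ ψ : Fun K n} {a b c : K} (ha : act l φ = a • ψ)
    (hb : act x φ = b • ψ) (hc : act y φ = c • ψ) :
    ∃ μ : Fin n → K, ∀ k, act (X k) φ = μ k • ψ := by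
  have key : ∀ z ∈ Submodule.span K {l, x, y}, ∃ r : K, act z φ = r • ψ := by
    intro z hz
    induction hz using Submodule.span_induction with
    | mem z hz =>
      rcases hz with rfl | rfl | rfl
      exacts [⟨a, ha⟩, ⟨b, hb⟩, ⟨c, hc⟩]
    | zero => exact ⟨0, LinearMap.ext fun q => by simp [act_apply]⟩
    | add z z' _ _ h h' =>
      obtain ⟨r, hr⟩ := h; obtain ⟨r', hr'⟩ := h'
      exact ⟨r + r', by rw [add_smul, ← hr, ← hr']; ext q; simp [act_apply, add_mul]⟩
    | smul s z _ h =>
      obtain ⟨r, hr⟩ := h
      exact ⟨s * r, by rw [mul_smul, ← hr]; ext q; simp [act_apply]⟩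
  choose μ hμ using fun k => key _ (hF.span k)
  exact ⟨μ, hμ⟩

end Vale.Agent.P200.Chain
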