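import Vale.Agent.P200.Chain.Count
import Vale.Agent.P200.Tern.Step

/-!
P200: sums along a chain with falling gains, and the value forced by a rise at the third degree.
-/

noncomputable section

namespace Vale.Agent.P200.Chain

open MvPolynomial Finset

/-- Next to the top degree of the last form the gains are at most `-ε`, and fall further. -/
lemma chain_lower {n : ℕ → ℕ} {u h δ ε : ℕ} (hu : u = h + ε)
    (hg : ∀ i ≤ δ, n (i + 1) + i + u ≤ n i + h) :
    n (δ + 1) + δ + ε ≤ n δ ∧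
      2 * n (δ + 1) + δ * (δ + 1) + 2 * δ * ε ≤ 2 * n 1 := by
  refine ⟨by have := hg δ le_rfl; omega, ?_⟩
  have key : ∀ k ≤ δ, 2 * n (k + 1) + k * (k + 1) + 2 * k * ε ≤ 2 * n 1 := by
    intro k hk
    induction k with
    | zero => simp
    | succ k ih =>
      have := ih (by omega)
      have := hg (k + 1) hk
      nlinarith
  exact key δ le_rfl

variable {K : Type*} [Field K]

/-- A rise of `δ + 1` into degree `t + 1` for two forms needs many points. -/
theorem low_count {A B : ℕ} (hAB : A ≤ B) {t : ℕ} (hBt : B ≤ t)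
    {I : Ideal (MvPolynomial (Fin 3) K)} (hlow : Tern.Low A B I) {W δ : ℕ}
    (hW : hilb I t ≤ W) (hrise : W + δ + 1 ≤ hilb I (t + 1)) :
    t + 1 + δ ≤ A + B ∧
      2 * ((t + 2 - B + δ) * (B + 1)) ≤ 2 * (W + δ + 1) + δ * (δ + 1) := by
  classical
  obtain ⟨T, hT, hTc, hTs⟩ := hlow t
  obtain ⟨G, hG, hGc⟩ := Box.exists_seg (Box.sl (Tern.u3 A B (t + 1)) 0 (t + 1)) (W + δ + 1)
    (hrise.trans (hTc ▸ card_le_card hT))
  have h1 := Tern.seg_shadow_le hAB (by omega) hT (hTc ▸ hrise) hG hGc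
  have h2 := Tern.card_le_shadow_add G
  set Z := G.filter fun x => x 2 = 0 with hZdef
  have hZ : δ + 1 ≤ Z.card := by omega
  obtain ⟨z, hz, hmax⟩ := exists_max_image Z (fun x => x 0) (card_pos.1 (by omega))
  obtain ⟨hzG, hz2⟩ := mem_filter.1 hz
  obtain ⟨hzb, hzs⟩ := Tern.mem_u3.1 (hG.1 hzG)
  have hcard : Z.card ≤ (Finset.Icc (t + 1 - B) (z 0)).card := by
    refine card_le_card_of_injOn (fun x => x 0) (fun x hx => ?_) fun x hx y hy h => ?_
    · obtain ⟨hxG, hx2⟩ := mem_filter.1 hx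
      obtain ⟨hxb, hxs⟩ := Tern.mem_u3.1 (hG.1 hxG)
      refine Finset.mem_coe.2 (mem_Icc.2 ⟨?_, hmax x hx⟩)
      show t + 1 - B ≤ x 0
      omega
    · obtain ⟨hxG, hx2⟩ := mem_filter.1 hx
      obtain ⟨-, hxs⟩ := Tern.mem_u3.1 (hG.1 hxG)
      obtain ⟨hyG, hy2⟩ := mem_filter.1 hy
      obtain ⟨-, hys⟩ := Tern.mem_u3.1 (hG.1 hyG)
      simp only at h
      funext i
      fin_cases i <;> simp <;> omega
  rw [Nat.card_Icc] at hcard
  refine ⟨by omega, ?_⟩
  have h3 := seg_rows le_rfl hG hzG hz2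
  have h4 := rows_sum (b := B + 1) (t := t + 1) (by omega) δ
  have h5 : ∑ i ∈ range (t + 1 + 2 - (B + 1) + δ), min (B + 1) (t + 1 + 1 - i) ≤
      ∑ i ∈ range (z 0 + 1), min (B + 1) (t + 1 + 1 - i) :=
    sum_le_sum_of_subset (range_subset_range.2 (by omega))
  rw [show t + 1 + 2 - (B + 1) = t + 2 - B by omega] at h4 h5
  omega

end Vale.Agent.P200.Chain
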