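import Vale.Agent.P200.Chain.Small

/-!
P200: the middle degrees of three forms: no step fails. A failure as extreme as possible and its
linked failure would both have drops `h - u ≤ 0`, and then the slice has no room for both.
-/

noncomputable section

namespace Vale.Agent.P200.Chain

open MvPolynomial Module Finset Deg Quint Growth

variable {K : Type*} [Field K] [IsAlgClosed K]

variable {a : Fin 3 → ℕ} {q : Fin 3 → MvPolynomial (Fin 3) K} {A B C : ℕ}

/-- No failure. -/
theorem no_fail (ha : ∀ i, 1 ≤ a i) (hm : Monotone a) (hd : ∀ i, (q i).IsHomogeneous (a i))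
    (hT : Tall q) (hA : a 0 = A + 1) (hB : a 1 = B + 1) (hC : a 2 = C + 1) {e e' : ℕ}
    {I : Ideal (MvPolynomial (Fin 3) K)} (hs : A + B = C + 1 + e + e')
    (hF : Fails q A B C e e' I) : False := by
  classical
  have hbox' : (fun i => a i - 1) = Tern.u3 A B C :=
    funext fun i => by fin_cases i <;> simp [Tern.u3, hA, hB, hC]
  have hex : ∃ ε, Top q A B C ε := ⟨A + B + ∑ x ∈ range (A + B + C + 2), slice A B C x,
    fun e e' I hs hF => by
      have h1 := hilb_le_slice ha hd hT hbox' hF.mem (C + e + 1)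
      have h2 := single_le_sum (f := fun x => slice A B C x) (fun _ _ => Nat.zero_le _)
        (mem_range.2 (show C + e + 1 < A + B + C + 2 by omega))
      omega⟩
  have hmax := Nat.find_spec hex
  set ε := Nat.find hex with hεdef
  obtain ⟨e, e', I, hs, hF, hε⟩ : ∃ e e' I, A + B = C + 1 + e + e' ∧ Fails q A B C e e' I ∧
      e + hilb I (C + e + 1) = hilb I (C + e) + ε := by
    rcases Nat.eq_zero_or_pos ε with h0 | h0
    · have := hmax e e' I hs hF
      have := hF.drop
      exact ⟨e, e', I, hs, hF, by omega⟩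
    · have hlt := Nat.find_min hex (show ε - 1 < Nat.find hex by omega)
      simp only [Top, not_forall, not_le] at hlt
      obtain ⟨e, e', I, hs, hF, h⟩ := hlt
      have := hmax e e' I hs hF
      exact ⟨e, e', I, hs, hF, by omega⟩
  have h01 : a 0 ≤ a 1 := hm (by decide)
  have h12 : a 1 ≤ a 2 := hm (by decide)
  have hbox : (fun i => a i - 1) = Tern.u3 A B C :=
    funext fun i => by fin_cases i <;> simp [Tern.u3, hA, hB, hC]
  have hsum : ∑ i, (a i - 1) = A + B + C := by rw [Fin.sum_univ_three]; omega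
  have hcaps : ∑ i, Tern.u3 A B C i = A + B + C := by
    simp [Fin.sum_univ_three, Tern.u3]
  have hH := card_mid (A := A) (B := B) (C := C) (k := e + 1) (k' := e') (by omega) (by omega)
    (by omega) (by omega) (by omega)
  have hH' := card_mid (A := A) (B := B) (C := C) (k := e) (k' := e' + 1) (by omega) (by omega)
    (by omega) (by omega) (by omega)
  have hsym : slice A B C (C + e') = slice A B C (C + e + 1) :=
    card_sl_symm _ (by rw [hcaps]; omega)
  have hsym' : slice A B C (C + e' + 1) = slice A B C (C + e) :=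
    card_sl_symm _ (by rw [hcaps]; omega)
  have hlk : ∀ x y, x + y = A + B + C → hilb I x + hilb (link q I) y = slice A B C x :=
    fun x y hxy => by
      have := hilb_link ha hd hT hF.homog hF.mem (hxy.trans hsum.symm)
      rwa [hbox] at this
  have hj1 := hlk (C + e + 1) (C + e') (by omega)
  have hj2 := hlk (C + e) (C + e' + 1) (by omega)
  have hdrop := hF.drop
  have hlarge := hF.large
  have hlinked := hF.linked
  change 2 * slice A B C (C + (e + 1)) + _ + _ = _ at hH
  change 2 * slice A B C (C + e) + _ + _ = _ at hH'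
  rw [← Nat.add_assoc] at hH
  have hdiff : slice A B C (C + e + 1) + e = slice A B C (C + e) + e' := by
    have e1 : (e + 1) * (e + 1 + 1) = e * (e + 1) + 2 * (e + 1) := by ring
    have e2 : (e' + 1) * (e' + 1 + 1) = e' * (e' + 1) + 2 * (e' + 1) := by ring
    omega
  have hF' : Fails q A B C e' e (link q I) := by
    refine ⟨homog_link hd hF.homog, mem_link I, by omega, ?_, ?_⟩
    · rw [show hilb (link q I) (C + e') - hilb (link q I) (C + e' + 1) =
        hilb I (C + e) + e' - (hilb I (C + e + 1) + e) by omega]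
      omega
    · rw [show hilb (link q I) (C + e') + e - (hilb (link q I) (C + e' + 1) + e') =
        hilb I (C + e) - hilb I (C + e + 1) by omega]
      omega
  have hle := extreme_small ha hm hd hT hA hB hC hmax e e' I hs hF hε
  have hle' := extreme_small ha hm hd hT hA hB hC hmax e' e _ (by omega) hF' (by omega)
  have h1 := extreme_low ha hm hd hT hA hB hC hmax e e' I hs hF hε
  have h2 := extreme_low ha hm hd hT hA hB hC hmax e' e _ (by omega) hF' (by omega)
  have h3 := two_tops_le (show A ≤ B by omega) (show B ≤ C by omega) hs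
  have h4 := tops_mono (b := B + 1) (e := e') (show e + e' + 1 - ε ≤ e' + 1 by omega)
  have h5 := tops_mono (b := B + 1) (e := e) (show e' + e + 1 - ε ≤ e + 1 by omega)
  omega

/-- The step into degree `C + e + 1`. -/
theorem chain_step (ha : ∀ i, 1 ≤ a i) (hm : Monotone a) (hd : ∀ i, (q i).IsHomogeneous (a i))
    (hT : Tall q) {I : Ideal (MvPolynomial (Fin 3) K)}
    (hI : Homog I) (hq : ∀ i, q i ∈ I) {d j : ℕ} (hd2 : a 2 ≤ d + 1) (hj2 : a 2 ≤ j + 1)
    (hdj : d + (j + 1) = ∑ i, (a i - 1)) :
    ∃ T, T ⊆ Box.sl (fun i => a i - 1) 0 (d + 1) ∧ T.card = hilb I (d + 1) ∧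
      (Box.shadow T).card ≤ hilb I d := by
  classical
  have h01 : a 0 ≤ a 1 := hm (by decide)
  have h12 : a 1 ≤ a 2 := hm (by decide)
  obtain ⟨A, hA⟩ : ∃ A, a 0 = A + 1 := ⟨a 0 - 1, by have := ha 0; omega⟩
  obtain ⟨B, hB⟩ : ∃ B, a 1 = B + 1 := ⟨a 1 - 1, by have := ha 1; omega⟩
  obtain ⟨C, hC⟩ : ∃ C, a 2 = C + 1 := ⟨a 2 - 1, by have := ha 2; omega⟩
  have hbox : (fun i => a i - 1) = Tern.u3 A B C :=
    funext fun i => by fin_cases i <;> simp [Tern.u3, hA, hB, hC]
  obtain ⟨e, rfl⟩ : ∃ e, d = C + e := ⟨d - C, by omega⟩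
  obtain ⟨e', rfl⟩ : ∃ e', j = C + e' := ⟨j - C, by omega⟩
  have hsum : ∑ i, (a i - 1) = A + B + C := by rw [Fin.sum_univ_three]; omega
  have hs : A + B = C + 1 + e + e' := by omega
  by_contra hno
  have hlk : ∀ x y, x + y = A + B + C → hilb I x + hilb (link q I) y = slice A B C x :=
    fun x y hxy => by
      have := hilb_link ha hd hT hI hq (hxy.trans hsum.symm)
      rwa [hbox] at this
  have hJ : ∀ T, T ⊆ Box.sl (Tern.u3 A B C) 0 (C + e' + 1) →
      T.card = hilb (link q I) (C + e' + 1) →
      hilb (link q I) (C + e') < (Box.shadow T).card := fun T hT1 hT2 => by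
    by_contra hle
    refine hno (linked_step_one ha hd hT hI hq hdj ⟨T, hbox.symm ▸ hT1, hT2, by omega, ?_⟩)
    rw [hbox]
    exact hilb_le_slice ha hd hT hbox (mem_link I) _
  have h1 := large_of_no_set (A := A) (B := B) (C := C) (e := e) (h := hilb I (C + e)) (by omega) (by omega)
    (hilb_le_slice ha hd hT hbox hq _) fun T hT1 hT2 => by
      by_contra hle
      exact hno ⟨T, hbox.symm ▸ hT1, hT2, by omega⟩
  have h2 := large_of_no_set (A := A) (B := B) (C := C) (e := e') (h := hilb (link q I) (C + e')) (by omega) (by omega)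
    (hilb_le_slice ha hd hT hbox (mem_link I) _) hJ
  have hj1 := hlk (C + e + 1) (C + e') (by omega)
  have hj2 := hlk (C + e) (C + e' + 1) (by omega)
  have hH := card_mid (A := A) (B := B) (C := C) (k := e + 1) (k' := e') (by omega) (by omega)
    (by omega) (by omega) (by omega)
  have hH' := card_mid (A := A) (B := B) (C := C) (k := e) (k' := e' + 1) (by omega) (by omega)
    (by omega) (by omega) (by omega)
  change 2 * slice A B C (C + (e + 1)) + _ + _ = _ at hH
  change 2 * slice A B C (C + e) + _ + _ = _ at hH'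
  rw [← Nat.add_assoc] at hH
  have hdiff : slice A B C (C + e + 1) + e = slice A B C (C + e) + e' := by
    have e1 : (e + 1) * (e + 1 + 1) = e * (e + 1) + 2 * (e + 1) := by ring
    have e2 : (e' + 1) * (e' + 1 + 1) = e' * (e' + 1) + 2 * (e' + 1) := by ring
    omega
  refine no_fail ha hm hd hT hA hB hC hs (I := I) ⟨hI, hq, h1.1, h1.2, ?_⟩
  have h3 := h2.2
  rw [show hilb (link q I) (C + e') - hilb (link q I) (C + e' + 1) =
    hilb I (C + e) + e' - (hilb I (C + e + 1) + e) by omega] at h3
  omega

end Vale.Agent.P200.Chain
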