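import Mathlib

/-!
P200: a pencil of maps none of which is onto has a large subspace with a small image.
-/

noncomputable section

namespace Vale.Agent.P200.Chain

open Module Polynomial

variable {K : Type*} [Field K]

/-- A pencil none of whose members is injective kills a polynomial vector. -/
lemma exists_kernel_vector [Infinite K] {u δ : ℕ} (M : Matrix (Fin u) (Fin δ) K[X])
    (h : ∀ t : K, ∃ v : Fin δ → K, v ≠ 0 ∧ (M.map (eval t)).mulVec v = 0) :
    ∃ v : Fin δ → K[X], v ≠ 0 ∧ M.mulVec v = 0 := by
  classical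
  let F := FractionRing K[X]
  let ι := algebraMap K[X] F
  have hι : Function.Injective ι := IsFractionRing.injective _ _
  by_cases hker : LinearMap.ker (M.map ι).mulVecLin = ⊥
  · exfalso
    obtain ⟨g, hg⟩ := LinearMap.exists_leftInverse_of_injective _ hker
    set L := LinearMap.toMatrix' g
    have hL : L * M.map ι = 1 := by
      have h1 := congrArg LinearMap.toMatrix' hg
      rw [LinearMap.toMatrix'_comp, LinearMap.toMatrix'_id] at h1
      simpa [← Matrix.toLin'_apply', LinearMap.toMatrix'_toLin'] using h1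
    obtain ⟨b, hb⟩ := IsLocalization.exist_integer_multiples (nonZeroDivisors K[X])
      (Finset.univ : Finset (Fin δ × Fin u)) (fun p => L p.1 p.2)
    choose c hc using fun p => hb p (Finset.mem_univ p)
    set L' : Matrix (Fin δ) (Fin u) K[X] := fun i j => c (i, j)
    have hL' : L'.map ι = ι b • L := by
      ext i j
      rw [Matrix.map_apply, Matrix.smul_apply, smul_eq_mul]
      exact (hc (i, j)).trans (Algebra.smul_def _ _)
    have hmul : L' * M = (b : K[X]) • (1 : Matrix (Fin δ) (Fin δ) K[X]) := by
      refine Matrix.map_injective hι ?_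
      show (L' * M).map ι = ((b : K[X]) • (1 : Matrix (Fin δ) (Fin δ) K[X])).map ι
      rw [Matrix.map_mul, hL', Matrix.smul_mul, hL]
      ext i j
      simp [Matrix.one_apply, apply_ite ι]
    have hb0 : (b : K[X]) ≠ 0 := nonZeroDivisors.coe_ne_zero b
    obtain ⟨t, ht⟩ : ∃ t : K, eval t (b : K[X]) ≠ 0 := by
      by_contra hc'
      simp only [not_exists, not_not] at hc'
      exact hb0 (Polynomial.funext fun t => by simp [hc' t])
    obtain ⟨v, hv, hv0⟩ := h t
    have h2 := congrArg (fun A : Matrix (Fin δ) (Fin δ) K[X] =>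
      (A.map (evalRingHom t)).mulVec v) hmul
    rw [Matrix.map_mul, ← Matrix.mulVec_mulVec,
      show (M.map (evalRingHom t)).mulVec v = 0 from hv0, Matrix.mulVec_zero] at h2
    refine hv (funext fun i => ?_)
    have h3 := congrFun h2 i
    simp [Matrix.mulVec, dotProduct, Matrix.one_apply, apply_ite (eval t), ht] at h3
    exact h3
  · obtain ⟨v, hv, hv0⟩ := Submodule.exists_mem_ne_zero_of_ne_bot hker
    obtain ⟨b, hb⟩ := IsLocalization.exist_integer_multiples (nonZeroDivisors K[X])
      (Finset.univ : Finset (Fin δ)) v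
    choose c hc using fun p => hb p (Finset.mem_univ p)
    have hcv : ι ∘ c = ι b • v := funext fun i => (hc i).trans (Algebra.smul_def _ _)
    refine ⟨c, fun h0 => hv0 ?_, ?_⟩
    · have hb0 : ι b ≠ 0 := fun e => nonZeroDivisors.coe_ne_zero b (hι (by rw [e, map_zero]))
      funext i
      have := congrFun hcv i
      simpa [h0, hb0] using this
    · refine funext fun i => hι ?_
      rw [RingHom.map_mulVec, hcv, Matrix.mulVec_smul, ← Matrix.mulVecLin_apply,
        LinearMap.mem_ker.1 hv]
      simp

/-- The same for linear maps: the coefficients of the kernel span a subspace shrunk by `A`. -/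
lemma exists_shrunk [Infinite K] {V U : Type*} [AddCommGroup V] [Module K V] [FiniteDimensional K V]
    [AddCommGroup U] [Module K U] [FiniteDimensional K U] (A B : V →ₗ[K] U)
    (h : ∀ t : K, ∃ v, v ≠ 0 ∧ B v + t • A v = 0) :
    ∃ P : Submodule K V, P.map B ≤ P.map A ∧ finrank K (P.map A) < finrank K P := by
  classical
  let bV := Module.finBasis K V
  let bU := Module.finBasis K U
  let M : Matrix (Fin (finrank K U)) (Fin (finrank K V)) K[X] :=
    fun j k => C (bU.repr (B (bV k)) j) + X * C (bU.repr (A (bV k)) j)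
  obtain ⟨w, hw, hMw⟩ := exists_kernel_vector M fun t => by
    obtain ⟨v, hv, hv0⟩ := h t
    refine ⟨bV.equivFun v, by simpa using hv, funext fun j => ?_⟩
    have h1 : bU.repr (B v + t • A v) j = 0 := by simp [hv0]
    rw [← bV.sum_equivFun v] at h1
    simp only [map_sum, map_smul, map_add, Finsupp.add_apply, Finsupp.smul_apply,
      Finsupp.coe_finsetSum, Finset.sum_apply, smul_eq_mul, Finset.mul_sum,
      ← Finset.sum_add_distrib] at h1
    simp only [Matrix.mulVec, dotProduct, Pi.zero_apply]
    refine (Finset.sum_congr rfl fun k _ => ?_).trans h1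
    rw [Matrix.map_apply]
    simp only [M, eval_add, eval_mul, eval_C, eval_X]
    ring
  set q : ℕ → V := fun i => ∑ k, (w k).coeff i • bV k
  have h0 : B (q 0) = 0 := bU.repr.injective <| Finsupp.ext fun j => by
    have := congrArg (fun p => coeff p 0) (congrFun hMw j)
    simp [Matrix.mulVec, dotProduct, M, finsetSum_coeff, add_mul, mul_assoc] at this
    simp [q]
    exact (Finset.sum_congr rfl fun k _ => by ring).trans this
  have hsucc : ∀ i, B (q (i + 1)) + A (q i) = 0 := fun i =>
    bU.repr.injective <| Finsupp.ext fun j => by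
    have := congrArg (fun p => coeff p (i + 1)) (congrFun hMw j)
    simp [Matrix.mulVec, dotProduct, M, finsetSum_coeff, add_mul, mul_assoc,
      Finset.sum_add_distrib] at this
    simp [q]
    refine (congrArg₂ (· + ·) (Finset.sum_congr rfl fun k _ => ?_)
      (Finset.sum_congr rfl fun k _ => ?_)).trans this <;> ring
  set P := Submodule.span K (Set.range q)
  have : Module.Finite K P := inferInstance
  refine ⟨P, ?_, ?_⟩
  · rw [Submodule.map_span_le]
    rintro _ ⟨i, rfl⟩
    rcases i with _ | i
    · rw [h0]; exact Submodule.zero_mem _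
    · rw [eq_neg_of_add_eq_zero_left (hsucc i)]
      exact neg_mem (Submodule.mem_map_of_mem (Submodule.subset_span ⟨i, rfl⟩))
  · obtain ⟨k, hk⟩ := Function.ne_iff.1 hw
    obtain ⟨k₁, hk₁, hk₁'⟩ : ∃ k₁, w k₁ ≠ 0 ∧ ∀ k, (w k).natDegree ≤ (w k₁).natDegree := by
      obtain ⟨k₁, hk₁, hmax⟩ := Finset.exists_max_image
        (Finset.univ.filter fun k => w k ≠ 0) (fun k => (w k).natDegree)
        ⟨k, Finset.mem_filter.2 ⟨Finset.mem_univ _, hk⟩⟩
      refine ⟨k₁, (Finset.mem_filter.1 hk₁).2, fun l => ?_⟩
      by_cases hl : w l = 0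
      · simp [hl]
      · exact hmax l (Finset.mem_filter.2 ⟨Finset.mem_univ _, hl⟩)
    set n := (w k₁).natDegree
    have hqn : q n ≠ 0 := fun e => by
      have := congrArg (fun v => bV.repr v k₁) e
      simp [q, Finsupp.single_apply] at this
      exact hk₁ (leadingCoeff_eq_zero.1 this)
    have hq1 : q (n + 1) = 0 := Finset.sum_eq_zero fun l _ => by
      rw [coeff_eq_zero_of_natDegree_lt (Nat.lt_succ_of_le (hk₁' l)), zero_smul]
    have hA : A (q n) = 0 := by simpa [hq1] using hsucc n
    have hr := LinearMap.finrank_range_add_finrank_ker (A.domRestrict P)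
    rw [LinearMap.range_domRestrict] at hr
    have hpos : 0 < finrank K (LinearMap.ker (A.domRestrict P)) :=
      Module.finrank_pos_iff_exists_ne_zero.2
        ⟨⟨⟨q n, Submodule.subset_span ⟨n, rfl⟩⟩, hA⟩, fun e => hqn (congrArg (fun z => z.1.1) e)⟩
    omega

variable {W : Type*} [AddCommGroup W] [Module K W]

/-- The image of `U` under three maps. -/
def next (L X Y : Module.End K W) (U : Submodule K W) : Submodule K W :=
  U.map L ⊔ U.map X ⊔ U.map Y

lemma next_mono (L X Y : Module.End K W) {U V : Submodule K W} (h : U ≤ V) :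
    next L X Y U ≤ next L X Y V :=
  sup_le_sup (sup_le_sup (Submodule.map_mono h) (Submodule.map_mono h)) (Submodule.map_mono h)

instance (L X Y : Module.End K W) (U : Submodule K W) [FiniteDimensional K U] :
    FiniteDimensional K (next L X Y U) := by
  unfold next; infer_instance

/-- Either a member of the pencil completes `L`, or a subspace of codimension `r` loses `p > r`. -/
theorem pencil [Infinite K] (L X Y : Module.End K W) (U : Submodule K W) [FiniteDimensional K U] :
    (∃ t : K, next L X Y U = U.map L ⊔ U.map (Y + t • X)) ∨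
    ∃ U' ≤ U, ∃ p r, r < p ∧ finrank K U' + r = finrank K U ∧
      finrank K (next L X Y U') + p ≤ finrank K (next L X Y U) ∧
      p + finrank K (U.map L) ≤ finrank K (next L X Y U) := by
  classical
  set π := (U.map L).mkQ
  set N1 := next L X Y U with hN1
  have hL : U.map L ≤ N1 := le_sup_left.trans le_sup_left
  have hX : U.map X ≤ N1 := le_sup_right.trans le_sup_left
  have hY : U.map Y ≤ N1 := le_sup_right
  set Q := N1.map π with hQ
  let a : U →ₗ[K] Q := ((π.comp X).domRestrict U).codRestrict Q fun u =>
    Submodule.mem_map_of_mem (hX (Submodule.mem_map_of_mem u.2))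
  let b : U →ₗ[K] Q := ((π.comp Y).domRestrict U).codRestrict Q fun u =>
    Submodule.mem_map_of_mem (hY (Submodule.mem_map_of_mem u.2))
  by_cases hsur : ∃ t : K, Function.Surjective (b + t • a)
  · obtain ⟨t, ht⟩ := hsur
    refine Or.inl ⟨t, le_antisymm (fun z hz => ?_) (sup_le hL ?_)⟩
    · obtain ⟨u, hu⟩ := ht ⟨π z, Submodule.mem_map_of_mem hz⟩
      have h1 : π ((Y + t • X) u.1) = π z :=
        (show π ((Y + t • X) u.1) = π (Y u.1) + t • π (X u.1) by simp).trans (congrArg Subtype.val hu)
      rw [Submodule.mkQ_apply, Submodule.mkQ_apply, Submodule.Quotient.eq] at h1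
      rw [show z = -((Y + t • X) u.1 - z) + (Y + t • X) u.1 by abel]
      exact Submodule.add_mem_sup (neg_mem h1) (Submodule.mem_map_of_mem u.2)
    · rintro _ ⟨u, hu, rfl⟩
      exact add_mem (hY (Submodule.mem_map_of_mem hu))
        (N1.smul_mem t (hX (Submodule.mem_map_of_mem hu)))
  refine Or.inr ?_
  simp only [not_exists] at hsur
  obtain ⟨P, hBA, hlt⟩ := exists_shrunk a.dualMap b.dualMap fun t => by
    by_contra hc
    simp only [not_exists, not_and] at hc
    refine hsur t (LinearMap.dualMap_injective_iff.1 ((injective_iff_map_eq_zero _).2 fun φ hφ => ?_))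
    by_contra hne
    exact hc φ hne (LinearMap.ext fun u => by simpa [map_add, map_smul] using LinearMap.congr_fun hφ u)
  set U₀ : Submodule K U := (P.map a.dualMap).dualCoannihilator with hU₀
  have hd1 : finrank K (P.map a.dualMap) + finrank K U₀ = finrank K U :=
    Subspace.finrank_add_finrank_dualCoannihilator_eq _
  have hd2 := Subspace.finrank_add_finrank_dualCoannihilator_eq P
  have hkill : ∀ u ∈ U₀, ∀ φ ∈ P, φ (a u) = 0 ∧ φ (b u) = 0 := by
    intro u hu φ hφ
    rw [Submodule.mem_dualCoannihilator] at hu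
    exact ⟨hu _ (Submodule.mem_map_of_mem hφ), hu _ (hBA (Submodule.mem_map_of_mem hφ))⟩
  set Z := N1 ⊓ (P.dualCoannihilator.map Q.subtype).comap π
  have hZ : next L X Y (U₀.map U.subtype) ≤ Z := by
    refine sup_le (sup_le ?_ ?_) ?_ <;> rintro _ ⟨_, ⟨u, hu, rfl⟩, rfl⟩
    · refine ⟨hL (Submodule.mem_map_of_mem u.2), ?_⟩
      simp only [SetLike.mem_coe, Submodule.mem_comap, Submodule.subtype_apply]
      rw [Submodule.mkQ_apply, (Submodule.Quotient.mk_eq_zero _).2 (Submodule.mem_map_of_mem u.2)]
      exact Submodule.zero_mem _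
    · exact ⟨hX (Submodule.mem_map_of_mem u.2), ⟨a u,
        (Submodule.mem_dualCoannihilator (Φ := P) _).2 fun φ hφ => (hkill u hu φ hφ).1, rfl⟩⟩
    · exact ⟨hY (Submodule.mem_map_of_mem u.2), ⟨b u,
        (Submodule.mem_dualCoannihilator (Φ := P) _).2 fun φ hφ => (hkill u hu φ hφ).2, rfl⟩⟩
  have : FiniteDimensional K Z := Submodule.finiteDimensional_of_le inf_le_left
  have hZr := LinearMap.finrank_range_add_finrank_ker (π.domRestrict Z)
  have hr : finrank K (LinearMap.range (π.domRestrict Z)) ≤ finrank K P.dualCoannihilator := by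
    rw [LinearMap.range_domRestrict, ← Submodule.finrank_map_subtype_eq Q P.dualCoannihilator]
    exact Submodule.finrank_mono (Submodule.map_le_iff_le_comap.2 inf_le_right)
  have hk : finrank K (LinearMap.ker (π.domRestrict Z)) ≤ finrank K (U.map L) := by
    rw [← Submodule.finrank_map_subtype_eq]
    refine Submodule.finrank_mono ?_
    rintro _ ⟨z, hz, rfl⟩
    exact (Submodule.Quotient.mk_eq_zero _).1 (LinearMap.mem_ker.1 hz)
  have hN := LinearMap.finrank_range_add_finrank_ker (π.domRestrict N1)
  rw [LinearMap.range_domRestrict, LinearMap.ker_domRestrict, Submodule.ker_mkQ,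
    (Submodule.comapSubtypeEquivOfLe hL).finrank_eq, ← hQ] at hN
  refine ⟨U₀.map U.subtype, Submodule.map_subtype_le _ _, finrank K P,
    finrank K (P.map a.dualMap), hlt, ?_, ?_, ?_⟩
  · rw [Submodule.finrank_map_subtype_eq]; omega
  · have := Submodule.finrank_mono hZ
    omega
  · omega

end Vale.Agent.P200.Chain
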