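import Vale.Agent.P200.Chain.Inverse
import Vale.Agent.P200.Chain.Forms
import Vale.Agent.P200.Chain.Count
import Vale.Agent.P200.Growth.Dual

/-!
P200: coordinates for the chain, the absence of common zeros, and the end of a plateau: a form of
small degree in the ideal makes the degree `T` too small.
-/

noncomputable section

namespace Vale.Agent.P200.Chain

open MvPolynomial Module Finset Deg Quint Growth

variable {K : Type*} [Field K]

section

variable {n : ℕ}

lemma act_add (p p' : MvPolynomial (Fin n) K) : act (p + p') = act p + act p' :=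
  LinearMap.ext fun φ => LinearMap.ext fun q => by simp [act_apply, add_mul]

lemma act_smul (r : K) (p : MvPolynomial (Fin n) K) : act (r • p) = r • act p :=
  LinearMap.ext fun φ => LinearMap.ext fun q => by simp [act_apply]

lemma act_sum {ι : Type*} (s : Finset ι) (f : ι → MvPolynomial (Fin n) K) :
    act (∑ i ∈ s, f i) = ∑ i ∈ s, act (f i) :=
  LinearMap.ext fun φ => LinearMap.ext fun q => by
    simp [act_apply, Finset.sum_mul, LinearMap.sum_apply]

variable {l x y : MvPolynomial (Fin n) K} {U : Submodule K (Fun K n)}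

/-- What kills `U` kills the whole chain. -/
lemma kill_levs {p : MvPolynomial (Fin n) K} (hp : p ∈ ann U) (i : ℕ) :
    ∀ φ ∈ levs l x y U i, ∀ q, φ (p * q) = 0 := by
  suffices h : ∀ i, levs l x y U i ≤ LinearMap.ker (act p) by
    intro φ hφ q
    exact LinearMap.congr_fun (LinearMap.mem_ker.1 (h i hφ)) q
  intro i
  induction i with
  | zero => exact fun φ hφ => LinearMap.mem_ker.2 (LinearMap.ext fun q => hp φ hφ q)
  | succ i ih =>
    refine sup_le (sup_le ?_ ?_) ?_ <;> rintro _ ⟨φ, hφ, rfl⟩ <;>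
      rw [LinearMap.mem_ker, ← Module.End.mul_apply, (act_comm _ _).eq, Module.End.mul_apply,
        LinearMap.mem_ker.1 (ih hφ), map_zero]

/-- A form whose multiples of degree `k` kill `U` kills `U`. -/
lemma mem_ann_of_mul (hF : Frame l x y) {T : ℕ} (hU : U ≤ supp K n T) :
    ∀ k t, t + k ≤ T → ∀ p : MvPolynomial (Fin n) K, p.IsHomogeneous t →
      (∀ r : MvPolynomial (Fin n) K, r.IsHomogeneous k → p * r ∈ ann U) → p ∈ ann U := by
  intro k
  induction k with
  | zero => intro t _ p _ h; simpa using h 1 (isHomogeneous_one _ _)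
  | succ k ih =>
    intro t ht p hp h
    refine ih t (by omega) p hp fun r hr => ?_
    obtain ⟨i, hi⟩ : ∃ i, t + k + (i + 1) = T := ⟨T - (t + k + 1), by omega⟩
    have hz : ∀ z : MvPolynomial (Fin n) K, z.IsHomogeneous 1 → z * (p * r) ∈ ann U := fun z hz => by
      rw [mul_left_comm]
      exact h (z * r) (add_comm 1 k ▸ hz.mul hr)
    exact mem_ann_of_frame hF (hi ▸ hU) (hp.mul hr) (hz l hF.hl) (hz x hF.hx) (hz y hF.hy)

end

/-- Two more forms and two points for a linear form in three variables. -/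
lemma exists_frame {l : MvPolynomial (Fin 3) K} (hl : l.IsHomogeneous 1) (hl0 : l ≠ 0) :
    ∃ (x y : MvPolynomial (Fin 3) K) (v w : Fin 3 → K), Frame l x y ∧
      eval v l = 0 ∧ eval v x = 1 ∧ eval v y = 0 ∧
      eval w l = 0 ∧ eval w x = 0 ∧ eval w y = 1 := by
  obtain ⟨c, rfl⟩ := exists_linear hl
  obtain ⟨k, hk⟩ : ∃ k, c k ≠ 0 := by
    by_contra h
    simp only [not_exists, not_not] at h
    simp [h] at hl0
  set i := k.succAbove (0 : Fin 2)
  set j := k.succAbove (1 : Fin 2)
  have hij : i ≠ j := fun e => absurd (Fin.succAbove_right_injective e) (by decide)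
  have hik : i ≠ k := Fin.succAbove_ne k 0
  have hjk : j ≠ k := Fin.succAbove_ne k 1
  have hall : ∀ z : Fin 3, z = k ∨ z = i ∨ z = j := fun z => by
    refine Fin.succAboveCases k (Or.inl rfl) (fun m => Or.inr ?_) z
    fin_cases m
    exacts [Or.inl rfl, Or.inr rfl]
  set v : Fin 3 → K := Function.update (Pi.single i 1) k (-c i / c k) with hv
  set w : Fin 3 → K := Function.update (Pi.single j 1) k (-c j / c k) with hw
  refine ⟨X i, X j, v, w, ⟨hl, isHomogeneous_X K i, isHomogeneous_X K j, ?_⟩, ?_, ?_, ?_, ?_, ?_, ?_⟩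
  · set P : Submodule K (MvPolynomial (Fin 3) K) :=
      Submodule.span K {∑ z, c z • X z, X i, X j}
    have h2 : (X i : MvPolynomial (Fin 3) K) ∈ P := Submodule.subset_span (by simp)
    have h3 : (X j : MvPolynomial (Fin 3) K) ∈ P := Submodule.subset_span (by simp)
    intro z
    rcases hall z with rfl | rfl | rfl
    · have h1 : (∑ z' : Fin 3, c z' • X z' : MvPolynomial (Fin 3) K) ∈ P :=
        Submodule.subset_span (by simp)
      rw [Fin.sum_univ_succAbove _ z, Fin.sum_univ_two] at h1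
      have := sub_mem h1 (add_mem (P.smul_mem (c i) h2) (P.smul_mem (c j) h3))
      rw [add_sub_cancel_right] at this
      simpa [smul_smul, inv_mul_cancel₀ hk] using P.smul_mem (c z)⁻¹ this
    · exact h2
    · exact h3
  · rw [map_sum, Fin.sum_univ_succAbove _ k, Fin.sum_univ_two]
    simp only [smul_eval, eval_X, v]
    simp [i, j, Fin.succAbove_ne, hij.symm, mul_div_cancel₀ _ hk]
  · simp [v, hik]
  · simp [v, hjk, hij.symm]
  · rw [map_sum, Fin.sum_univ_succAbove _ k, Fin.sum_univ_two]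
    simp only [smul_eval, eval_X, w]
    simp [i, j, Fin.succAbove_ne, hij, mul_div_cancel₀ _ hk]
  · simp [w, hik, hij]
  · simp [w, hjk]

variable [IsAlgClosed K]

/-- Forms without a common zero do not all vanish at the point of an eigenfunctional. -/
lemma eigen_false {q : Fin 3 → MvPolynomial (Fin 3) K} {b : Fin 3 → ℕ}
    (hd : ∀ i, (q i).IsHomogeneous (b i)) (hT : Tall q) {T : ℕ} (hb : ∀ i, b i ≤ T) (h1 : 1 ≤ T)
    {φ : Fun K 3} (hφ : φ ∈ supp K 3 T) (h0 : φ ≠ 0)
    (hq : ∀ i r, φ (q i * r) = 0) {l x y w : MvPolynomial (Fin 3) K} (hF : Frame l x y)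
    (hw : w.IsHomogeneous 1) {r₀ r₁ r₂ : K} (ha : act l φ = r₀ • act w φ)
    (hx : act x φ = r₁ • act w φ) (hy : act y φ = r₂ • act w φ) : False := by
  obtain ⟨μ, hμ⟩ := hF.eigen ha hx hy
  obtain ⟨hw1, hvan⟩ := eval_of_eigen hφ h0 hw hμ
  have hμ0 := zero_of_tall hd hT μ fun i => hvan _ _ (hd i) (hb i) (hq i)
  have := hw1 h1
  rw [hμ0, eval_zero_of_homogeneous hw le_rfl] at this
  exact zero_ne_one this

variable {a : Fin 3 → ℕ} {q : Fin 3 → MvPolynomial (Fin 3) K}

/-- A nonzero form of small degree killing `U` bounds its dimension. -/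
lemma finrank_le_of_form (ha : ∀ i, 1 ≤ a i) (hm : Monotone a)
    (hd : ∀ i, (q i).IsHomogeneous (a i)) (hT : Tall q) {J : Ideal (MvPolynomial (Fin 3) K)}
    (hqJ : ∀ i, q i ∈ J) {A B C : ℕ} (hB : a 1 = B + 1) (hC : a 2 = C + 1) {e : ℕ}
    {G : MvPolynomial (Fin 3) K} (hG : G.IsHomogeneous (A + 1)) (hG0 : G ≠ 0) (hGJ : G ∈ J) :
    hilb J (C + e + 1) ≤ tops (B + 1) e (A + 1) := by
  have hg1 : Tall ![G] := tall_one hG0
  obtain ⟨v, hv, hvQ⟩ := exists_next hd hT hqJ (m := 1) (by omega) (g := ![G]) (t := a 1)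
    fun i hi => hm (Fin.le_def.2 (by simpa using hi))
  have hg2 := tall_snoc hg1 hvQ
  obtain ⟨w, hw, hwQ⟩ := exists_next hd hT hqJ (m := 2) le_rfl (g := Fin.snoc ![G] v) (t := a 2)
    fun i _ => hm (Fin.le_last i)
  have hg3 := tall_snoc hg2 hwQ
  set g : Fin 3 → MvPolynomial (Fin 3) K := Fin.snoc (Fin.snoc ![G] v) w
  have hgd : ∀ i, (g i).IsHomogeneous (![A + 1, a 1, a 2] i) := fun i => by
    fin_cases i
    · exact hG
    · exact (mem_piece.1 hv).2
    · exact (mem_piece.1 hw).2
  have hgJ : pre g 3 ≤ J := Ideal.span_le.2 (by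
    rintro _ ⟨i, -, rfl⟩
    fin_cases i
    · exact hGJ
    · exact (mem_piece.1 hv).1
    · exact (mem_piece.1 hw).1)
  have hb : ∀ i, 1 ≤ ![A + 1, a 1, a 2] i := fun i => by
    fin_cases i
    · simp
    · exact ha 1
    · exact ha 2
  refine ((hilb_anti hgJ _).trans_eq
    (hilb_all hb hgd (tall_regular 3 3 g le_rfl _ hb hgd hg3) _)).trans ?_
  rw [show (fun i => ![A + 1, a 1, a 2] i - 1) = Tern.u3 A B C from
    funext fun i => by fin_cases i <;> simp [Tern.u3] <;> omega]
  exact card_thin_le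

/-- A plateau high enough is impossible. -/
theorem no_plateau (ha : ∀ i, 1 ≤ a i) (hm : Monotone a) (hd : ∀ i, (q i).IsHomogeneous (a i))
    (hT : Tall q) {B C e : ℕ} (hB : a 1 = B + 1) (hC : a 2 = C + 1) {U : Submodule K (Fun K 3)}
    (hU : U ≤ supp K 3 (C + e + 1)) (hq : ∀ i, q i ∈ ann U) {D : ℕ} (hDe : D ≤ e)
    (hlarge : tops (B + 1) e D < finrank K U)
    {l x y : MvPolynomial (Fin 3) K} (hF : Frame l x y) {v : Fin 3 → K} (hvl : eval v l = 0)
    (hvx : eval v x = 1) (hvy : eval v y = 0)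
    (h1 : levs l x y U 1 = U.map (act l) ⊔ U.map (act y)) {i δ : ℕ} (hiδ : δ + i ≤ D)
    (hinj : ∀ φ ∈ levs l x y U i, act l φ = 0 → φ = 0)
    (hd1 : finrank K (levs l x y U (i + 1)) = finrank K (levs l x y U i) + δ)
    (hd2 : finrank K (levs l x y U (i + 2)) = finrank K (levs l x y U (i + 1)) + δ) : False := by
  classical
  have : FiniteDimensional K U := Submodule.finiteDimensional_of_le hU
  set N := levs l x y U i with hN
  have hN1 := lev_succ (act_comm l x) (act_comm x y) h1 i
  have hN2 := lev_succ (act_comm l x) (act_comm x y) h1 (i + 1)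
  change levs l x y U (i + 1) = N.map (act l) ⊔ N.map (act y) at hN1
  change levs l x y U (i + 2) = (levs l x y U (i + 1)).map (act l) ⊔
    (levs l x y U (i + 1)).map (act y) at hN2
  rw [hN1] at hd1 hd2 hN2
  rw [hN2] at hd2
  obtain ⟨P⟩ := exists_plateau (act_comm l x) (act_comm l y) (act_comm x y)
    (E0 := N) (hN1 ▸ (le_sup_right.trans le_sup_left : N.map (act x) ≤ levs l x y U (i + 1)))
    hinj hd1 hd2
  have hlev : N ≤ supp K 3 (C + e + 1 - i) := levs_supp hF hU i _ (by omega)
  obtain ⟨c, hc0, -, hc⟩ := P.exists_form (act_comm l x) (act_comm l y) (act_comm x y)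
    fun φ hφ p r hp hr => by
      by_contra h0
      exact eigen_false hd hT (fun k => (hm (Fin.le_last k)).trans
        (show a 2 ≤ C + e + 1 - i by omega)) (by omega) (hlev hφ) h0
        (fun k => kill_levs (hq k) i φ hφ) hF hF.hl (r₀ := 1) (one_smul _ _).symm hp hr
  set G : MvPolynomial (Fin 3) K := ∑ r ∈ range (δ + 1), ∑ s ∈ range (r + 1),
    (c r).coeff s • (y ^ s * (l ^ (r - s) * x ^ (δ - r))) with hG
  have hGh : G.IsHomogeneous δ := IsHomogeneous.sum _ _ _ fun r hr => IsHomogeneous.sum _ _ _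
    fun s hs => (homogeneousSubmodule (Fin 3) K δ).smul_mem _ (by
      rw [Finset.mem_range] at hr hs
      have h := (hF.hy.pow s).mul ((hF.hl.pow (r - s)).mul (hF.hx.pow (δ - r)))
      rwa [show 1 * s + (1 * (r - s) + 1 * (δ - r)) = δ by omega] at h)
  have hGv : eval v G = 1 := by
    rw [hG, map_sum, Finset.sum_eq_single 0]
    · simp [hvx, hc0]
    · intro r hr hr0
      rw [map_sum]
      refine Finset.sum_eq_zero fun s hs => ?_
      rcases Nat.eq_zero_or_pos s with rfl | hs0
      · simp [smul_eval, hvl, hr0]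
      · simp [smul_eval, hvy, hs0.ne']
    · simp
  have hkill : ∀ φ ∈ N, act G φ = 0 := fun φ hφ => by
    refine Eq.trans ?_ (hc φ hφ)
    simp only [G, act_sum, LinearMap.sum_apply, act_smul, LinearMap.smul_apply, act_mul, act_pow,
      Module.End.mul_apply]
  have hGU : G ∈ ann U := mem_ann_of_mul hF hU (C + e + 1 - i - δ) δ (by omega) G hGh fun r hr =>
    (mem_ann_iff hF hU i (C + e + 1 - i) (by omega) (G * r) (by
      have := hGh.mul hr
      rwa [show δ + (C + e + 1 - i - δ) = C + e + 1 - i by omega] at this)).2 fun φ hφ =>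
      LinearMap.congr_fun (hkill φ hφ) r
  rcases δ with _ | A
  · have hG1 : G = 1 := by
      have h := totalDegree_eq_zero_iff_eq_C.1 (Nat.le_zero.1 hGh.totalDegree_le)
      rw [h, eval_C] at hGv
      rw [h, hGv, C_1]
    have : U = ⊥ := (Submodule.eq_bot_iff U).2 fun φ hφ => LinearMap.ext fun r => by
      have := (hG1 ▸ hGU : (1 : MvPolynomial (Fin 3) K) ∈ ann U) φ hφ r
      rw [one_mul] at this
      exact this
    rw [this, finrank_bot] at hlarge
    omega
  · have hG0 : G ≠ 0 := fun e => by simp [e] at hGv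
    have h := finrank_le_of_form (e := e) ha hm hd hT hq hB hC hGh hG0 hGU
    rw [hilb_ann hF hU (i := 0) (t := C + e + 1) rfl] at h
    have := tops_mono (b := B + 1) (e := e) (show A + 1 ≤ D by omega)
    change finrank K U ≤ _ at h
    omega

end Vale.Agent.P200.Chain
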