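import Vale.Agent.P200.Chain.Plane
import Vale.Agent.P200.Chain.LowBound

/-!
P200: the middle degrees of three forms: what a failure of the growth bound as extreme as possible
gives for the inverse system, and the rise it forces when it lies next to the top degree of the last.
-/

noncomputable section

namespace Vale.Agent.P200.Chain

open MvPolynomial Module Finset Deg Quint Growth

variable {K : Type*} [Field K] [IsAlgClosed K]

/-- The size of a slice of the box of `A`, `B`, `C`. -/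
abbrev slice (A B C x : ℕ) : ℕ := (Box.sl (Tern.u3 A B C) 0 x).card

/-- What a failure at the step into degree `C + e + 1` gives for the ideal and its link. -/
structure Fails (q : Fin 3 → MvPolynomial (Fin 3) K) (A B C e e' : ℕ)
    (I : Ideal (MvPolynomial (Fin 3) K)) : Prop where
  homog : Homog I
  mem : ∀ i, q i ∈ I
  drop : hilb I (C + e) ≤ hilb I (C + e + 1) + e
  large : tops (B + 1) e (hilb I (C + e) - hilb I (C + e + 1)) < hilb I (C + e + 1)
  linked : hilb I (C + e) +
    tops (B + 1) e' (hilb I (C + e) + e' - (hilb I (C + e + 1) + e)) < slice A B C (C + e)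

/-- No failure has a larger `e + u - h` than `ε`. -/
def Top (q : Fin 3 → MvPolynomial (Fin 3) K) (A B C ε : ℕ) : Prop :=
  ∀ e e' (I : Ideal (MvPolynomial (Fin 3) K)), A + B = C + 1 + e + e' → Fails q A B C e e' I →
    e + hilb I (C + e + 1) ≤ hilb I (C + e) + ε

variable {a : Fin 3 → ℕ} {q : Fin 3 → MvPolynomial (Fin 3) K} {A B C : ℕ}

lemma hilb_le_slice (ha : ∀ i, 1 ≤ a i) (hd : ∀ i, (q i).IsHomogeneous (a i)) (hT : Tall q)
    (hbox : (fun i => a i - 1) = Tern.u3 A B C) {I : Ideal (MvPolynomial (Fin 3) K)}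
    (hq : ∀ i, q i ∈ I) (x : ℕ) : hilb I x ≤ slice A B C x := by
  have hle : pre q 3 ≤ I := Ideal.span_le.2 (by rintro _ ⟨i, -, rfl⟩; exact hq i)
  have h := hilb_all ha hd (tall_regular 3 3 q le_rfl a ha hd hT) x
  rw [hbox] at h
  exact (hilb_anti hle x).trans_eq h

/-- A linear form avoiding the minimal primes of two pairs. -/
lemma exists_line {g g' : Fin 2 → MvPolynomial (Fin 3) K} (hg : pre g 2 ≠ ⊤) :
    ∃ l : MvPolynomial (Fin 3) K, l.IsHomogeneous 1 ∧ l ≠ 0 ∧
      (∀ Q ∈ (pre g 2).minimalPrimes, l ∉ Q) ∧ ∀ Q ∈ (pre g' 2).minimalPrimes, l ∉ Q := by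
  obtain ⟨l, hl, hlQ⟩ := exists_avoid ![pre g 2, pre g' 2] (part K 3 1) fun i Q hQ => by
    by_contra hc
    simp only [not_exists, not_and, not_not] at hc
    have h3 : (3 : ℕ∞) ≤ Q.height := le_height_of_X fun k => hc _ (isHomogeneous_X K k)
    have h2 : Q.height ≤ 2 := by
      fin_cases i
      · exact height_le_of_minimal (g := g) hQ
      · exact height_le_of_minimal (g := g') hQ
    have := h3.trans h2
    norm_num at this
  obtain ⟨Q, hQ⟩ := Set.nonempty_iff_ne_empty.2
    fun h => hg ((Ideal.minimalPrimes_eq_empty_iff _).1 h)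
  exact ⟨l, hl, fun h0 => hlQ 0 Q hQ (h0 ▸ Q.zero_mem), hlQ 0, hlQ 1⟩

/-- Few functionals are killed by a general line. -/
lemma ker_flat (hd : ∀ i, (q i).IsHomogeneous (a i)) (hT : Tall q) (hA : a 0 = A + 1)
    (hB : a 1 = B + 1) {e e' : ℕ} (hs : A + B = C + 1 + e + e') {U : Submodule K (Fun K 3)}
    (hU : U ≤ supp K 3 (C + e + 1)) (hqU : ∀ i, q i ∈ ann U) {l x y : MvPolynomial (Fin 3) K}
    (hF : Frame l x y) (hlQ : ∀ Q ∈ (pre (q ∘ Fin.castSucc) 2).minimalPrimes, l ∉ Q) :
    finrank K U ≤ finrank K (U.map (act l)) + (e' + 1) := by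
  have : FiniteDimensional K U := Submodule.finiteDimensional_of_le hU
  have hker := finrank_ker_add U (act l)
  set K₀ := U ⊓ LinearMap.ker (act l)
  have hK₀ : K₀ ≤ supp K 3 (C + e + 1) := inf_le_left.trans hU
  set p : Fin 3 → MvPolynomial (Fin 3) K := Fin.snoc (q ∘ Fin.castSucc) l
  have hpT : Tall p := tall_snoc (tall_castSucc hT) hlQ
  have hpd : ∀ i, (p i).IsHomogeneous (![A + 1, B + 1, 1] i) := fun i => by
    fin_cases i
    · exact hA ▸ hd 0
    · exact hB ▸ hd 1
    · exact hF.hl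
  have hp1 : ∀ i, 1 ≤ ![A + 1, B + 1, 1] i := fun i => by fin_cases i <;> simp
  have hple : pre p 3 ≤ ann K₀ := Ideal.span_le.2 (by
    rintro _ ⟨i, -, rfl⟩
    fin_cases i
    · exact ann_anti inf_le_left (hqU 0)
    · exact ann_anti inf_le_left (hqU 1)
    · exact fun φ hφ r => LinearMap.congr_fun (LinearMap.mem_ker.1 hφ.2) r)
  have h1 := (hilb_anti hple (C + e + 1)).trans_eq
    (hilb_all hp1 hpd (tall_regular 3 3 p le_rfl _ hp1 hpd hpT) _)
  rw [show (fun i => ![A + 1, B + 1, 1] i - 1) = Tern.u3 A B 0 from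
    funext fun i => by fin_cases i <;> simp [Tern.u3],
    hilb_ann hF hK₀ (i := 0) (Nat.add_zero _)] at h1
  have h2 := card_flat_le (A := A) (B := B) (C := C) (e := e) (e' := e') (by omega)
  change finrank K K₀ ≤ _ at h1
  omega

/-- In an extreme failure the pencil is onto. -/
lemma onto {e e' : ℕ} (hes : e + e' + 1 ≤ B) {U : Submodule K (Fun K 3)}
    (hU : U ≤ supp K 3 (C + e + 1)) (hqU : ∀ i, q i ∈ ann U) {l x y : MvPolynomial (Fin 3) K}
    (hF : Frame l x y) {u h : ℕ} (hu : finrank K U = u) (hh : finrank K (levs l x y U 1) = h)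
    (hdrop : h ≤ u + e) (hlarge : tops (B + 1) e (h - u) < u)
    (hlinked : h + tops (B + 1) e' (h + e' - (u + e)) < slice A B C (C + e))
    (hk : finrank K U ≤ finrank K (U.map (act l)) + (e' + 1))
    (hmin : ∀ I' : Ideal (MvPolynomial (Fin 3) K), Fails q A B C e e' I' →
      hilb I' (C + e + 1) + h ≤ u + hilb I' (C + e)) :
    ∃ t : K, next (act l) (act x) (act y) U = U.map (act l) ⊔ U.map (act y + t • act x) := by
  have : FiniteDimensional K U := Submodule.finiteDimensional_of_le hU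
  rcases pencil (act l) (act x) (act y) U with h' | ⟨U', hU'U, p, r, hrp, hur, hpd, hpl⟩
  · exact h'
  exfalso
  have hU' : U' ≤ supp K 3 (C + e + 1) := hU'U.trans hU
  have : FiniteDimensional K U' := Submodule.finiteDimensional_of_le hU'
  have hu' : hilb (ann U') (C + e + 1) = finrank K U' := hilb_ann hF hU' (i := 0) (Nat.add_zero _)
  have hh' : hilb (ann U') (C + e) = finrank K (levs l x y U' 1) := hilb_ann hF hU' rfl
  change finrank K (levs l x y U' 1) + p ≤ finrank K (levs l x y U 1) at hpd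
  change p + _ ≤ finrank K (levs l x y U 1) at hpl
  rw [hh] at hpd hpl
  rw [hu] at hur hk
  generalize finrank K U' = u' at hu' hur
  generalize finrank K (levs l x y U' 1) = h' at hh' hpd
  suffices hf : Fails q A B C e e' (ann U') by have := hmin _ hf; omega
  refine ⟨homog_ann hU', fun i => ann_anti hU'U (hqU i), by omega, ?_, ?_⟩
  · rw [hu', hh']
    by_contra hsmall
    rcases Nat.eq_zero_or_pos (h - u) with hD | hD
    · rw [show h' - u' = 0 by omega, tops_zero] at hsmall
      omega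
    · obtain ⟨D, hDe⟩ : ∃ D, h - u = D + 1 := ⟨h - u - 1, by omega⟩
      have h1 := tops_mono (b := B + 1) (e := e) (show h' - u' ≤ D by omega)
      rw [hDe, tops_succ] at hlarge
      omega
  · rw [hu', hh']
    have := tops_mono (b := B + 1) (e := e') (show h' + e' - (u' + e) ≤ h + e' - (u + e) by omega)
    omega

/-- The gains fall down to the third degree. -/
lemma falling (ha : ∀ i, 1 ≤ a i) (hm : Monotone a) (hd : ∀ i, (q i).IsHomogeneous (a i))
    (hT : Tall q) (hB : a 1 = B + 1) (hC : a 2 = C + 1) {e δ : ℕ} {U : Submodule K (Fun K 3)}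
    (hU : U ≤ supp K 3 (C + e + 1)) (hqU : ∀ i, q i ∈ ann U) {l x y : MvPolynomial (Fin 3) K}
    (hF : Frame l x y) {z : Fin 3 → K} (hzl : eval z l = 0) (hzx : eval z x = 1)
    (hzy : eval z y = 0) (h1 : levs l x y U 1 = U.map (act l) ⊔ U.map (act y)) {u h : ℕ}
    (hu : finrank K U = u) (hh : finrank K (levs l x y U 1) = h) (hdrop : h ≤ u + e)
    (hlarge : tops (B + 1) e (h - u) < u) {g : Fin 2 → MvPolynomial (Fin 3) K} {a' b' : ℕ}
    (hgd : ∀ i, (g i).IsHomogeneous (![a', b'] i)) (hgT : Tall g) (hgU : ∀ i, g i ∈ ann U)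
    (hl : ∀ Q ∈ (pre g 2).minimalPrimes, l ∉ Q) (hab : a' ≤ b') (hb : b' + δ ≤ C + 1) :
    ∀ i ≤ e + δ, finrank K (levs l x y U (i + 1)) + i + u ≤ finrank K (levs l x y U i) + h := by
  have : FiniteDimensional K U := Submodule.finiteDimensional_of_le hU
  set g₃ : Fin 3 → MvPolynomial (Fin 3) K := Fin.snoc g l
  have hg₃T : Tall g₃ := tall_snoc hgT hl
  have hg₃d : ∀ i, (g₃ i).IsHomogeneous (![a', b', 1] i) := fun i => by
    fin_cases i
    · exact hgd 0
    · exact hgd 1
    · exact hF.hl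
  rw [← hu, ← hh]
  refine gain (U := U) (act_comm l x) (act_comm l y) (act_comm x y) h1 (e := e)
    (hu.symm ▸ hh.symm ▸ hdrop : finrank K (levs l x y U 1) ≤ finrank K U + e)
    (fun i hi φ hφ hlφ hor => ?_) fun i hi δ' hδ' hinj hd1 hd2 => ?_
  · by_contra hφ0
    have hlev := levs_supp hF hU i (C + e + 1 - i) (by omega) hφ
    have hkill : ∀ j r, φ (g₃ j * r) = 0 := fun j r => by
      fin_cases j
      · exact kill_levs (hgU 0) i φ hφ r
      · exact kill_levs (hgU 1) i φ hφ r
      · exact LinearMap.congr_fun hlφ r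
    have hdeg : ∀ j, ![a', b', 1] j ≤ C + e + 1 - i := fun j => by
      fin_cases j <;> simp <;> omega
    rcases hor with hxφ | ⟨r, hyφ⟩
    · exact eigen_false hg₃d hg₃T hdeg (by omega) hlev hφ0 hkill hF hF.hy
        (r₀ := 0) (r₁ := 0) (r₂ := 1) (hlφ.trans (zero_smul _ _).symm)
        (hxφ.trans (zero_smul _ _).symm) (one_smul _ _).symm
    · exact eigen_false hg₃d hg₃T hdeg (by omega) hlev hφ0 hkill hF hF.hx
        (r₀ := 0) (r₁ := 1) (hlφ.trans (zero_smul _ _).symm) (one_smul _ _).symm hyφ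
  · change δ' + i + finrank K U ≤ finrank K (levs l x y U 1) at hδ'
    exact no_plateau ha hm hd hT hB hC hU hqU (D := h - u) (by omega) (hu.symm ▸ hlarge) hF
      hzl hzx hzy h1 (by omega) hinj hd1 hd2

/-- The arithmetic at the third degree. -/
lemma compare {A' B' t δ ε L W : ℕ} (hAB : A' ≤ B') (hB : B' ≤ B) (hBC : B ≤ C)
    (hδ : t + δ = C) (hBt : B' ≤ t) (h1 : t + 1 + (δ + ε) ≤ A' + B')
    (h2 : 2 * ((t + 2 - B' + (δ + ε)) * (B' + 1)) ≤
      2 * (W + (δ + ε) + 1) + (δ + ε) * (δ + ε + 1))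
    (h3 : 2 * W + δ * (δ + 1) + 2 * δ * ε ≤ 2 * L) :
    2 * ((C + 1 + ε - B) * (B + 1)) < 2 * L + ε * (ε + 1) := by
  obtain ⟨k, rfl⟩ : ∃ k, B = B' + k := ⟨B - B', by omega⟩
  generalize hM : C + 1 + ε - (B' + k) = M
  rw [show t + 2 - B' + (δ + ε) = M + 1 + k by omega] at h2
  have hMB : M ≤ B' := by omega
  have : δ + ε < B' := by omega
  nlinarith [Nat.mul_le_mul_right k hMB]

/-- An extreme failure falls by more and more down the chain, and next to the top degree of the last
form this forces a large value. -/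
theorem side (ha : ∀ i, 1 ≤ a i) (hm : Monotone a) (hd : ∀ i, (q i).IsHomogeneous (a i))
    (hT : Tall q) (hA : a 0 = A + 1) (hB : a 1 = B + 1) (hC : a 2 = C + 1) {e e' ε : ℕ}
    (hs : A + B = C + 1 + e + e') {I : Ideal (MvPolynomial (Fin 3) K)}
    (hF : Fails q A B C e e' I) (hmax : Top q A B C ε)
    (hε : e + hilb I (C + e + 1) = hilb I (C + e) + ε) :
    ∃ U : Submodule K (Fun K 3), U ≤ supp K 3 (C + e + 1) ∧ (∀ i, q i ∈ ann U) ∧
      hilb (ann U) (C + e + 1) = hilb I (C + e + 1) ∧ hilb (ann U) (C + e) = hilb I (C + e) ∧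
      (∀ k, e = k + 1 →
        hilb (ann U) (C + k) + 1 + hilb I (C + e + 1) ≤ 2 * hilb I (C + e)) ∧
      (e = 0 → ε ≤ e' ∧ 2 * ((C + 1 + ε - B) * (B + 1)) < 2 * hilb I (C + e) + ε * (ε + 1)) := by
  classical
  have h01 : a 0 ≤ a 1 := hm (by decide)
  have h12 : a 1 ≤ a 2 := hm (by decide)
  have hbox : (fun i => a i - 1) = Tern.u3 A B C :=
    funext fun i => by fin_cases i <;> simp [Tern.u3, hA, hB, hC]
  obtain ⟨hIh, hIq, hdrop, hlarge, hlinked⟩ := hF
  set u := hilb I (C + e + 1) with hu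
  set h := hilb I (C + e) with hh
  -- the inverse system
  set U := perp I (C + e + 1)
  have hU : U ≤ supp K 3 (C + e + 1) := perp_le_supp _ _
  have : FiniteDimensional K U := Submodule.finiteDimensional_of_le hU
  have hUu : finrank K U = u := finrank_perp _ _
  have hIJ : I ≤ ann U := le_ann_perp hIh _
  set J := ann U
  have hqJ : ∀ i, q i ∈ J := fun i => hIJ (hIq i)
  have hJh : Homog J := homog_ann hU
  have h0 : ∀ v ∈ piece J 0, v = 0 := by
    intro v hv
    obtain ⟨hvJ, hvd⟩ := mem_piece.1 hv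
    have hC0 := totalDegree_eq_zero_iff_eq_C.1 (Nat.le_zero.1 hvd.totalDegree_le)
    by_contra hne
    have hr : coeff 0 v ≠ 0 := fun e0 => hne (by rw [hC0, e0, C_0])
    have : U = ⊥ := (Submodule.eq_bot_iff U).2 fun φ hφ => LinearMap.ext fun p => by
      have := hvJ φ hφ ((MvPolynomial.C (coeff 0 v)⁻¹) * p)
      rw [← mul_assoc, hC0, coeff_C, if_pos rfl, ← map_mul, mul_inv_cancel₀ hr, C_1, one_mul] at this
      exact this
    rw [this, finrank_bot] at hUu
    omega
  obtain ⟨a', b', c', g, ha'1, ha'a, hab', hb'b, hbc', hc'c, hgJ, hgd, hgT, I₀, hI₀h, hgI₀,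
    hI₀eq, hI₀lt⟩ := exists_seq hd hm hT hqJ h0
  -- a general line
  set f : Fin 2 → MvPolynomial (Fin 3) K := q ∘ Fin.castSucc
  have hfT : Tall f := tall_castSucc hT
  have hgne : pre g 2 ≠ ⊤ := span_ne_top (by
    rintro _ ⟨i, -, rfl⟩
    exact eval_zero_of_homogeneous (hgd i) (by fin_cases i <;> simp <;> omega))
  obtain ⟨l, hl, hl0, hlg, hlf⟩ := exists_line (g' := f) hgne
  obtain ⟨x, y₀, v, w, hF₀, hvl, hvx, hvy, hwl, hwx, hwy⟩ := exists_frame hl hl0
  have hJu : hilb J (C + e + 1) = u :=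
    (hilb_ann hF₀ hU (i := 0) (Nat.add_zero _)).trans hUu
  -- the ideal of `U` is an extreme failure as well
  have hJle : hilb J (C + e) ≤ h := hilb_anti hIJ _
  have hJh' : hilb J (C + e) = h := by
    by_contra hne
    suffices hf : Fails q A B C e e' J by have := hmax e e' J hs hf; omega
    refine ⟨hJh, hqJ, by omega, ?_, ?_⟩
    · rw [hJu]
      exact lt_of_le_of_lt (tops_mono (by omega)) hlarge
    · rw [hJu]
      exact lt_of_le_of_lt (add_le_add hJle (tops_mono (by omega))) hlinked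
  have hn1 : finrank K (levs l x y₀ U 1) = h := by rw [← hilb_ann hF₀ hU rfl, hJh']
  have hk := ker_flat hd hT hA hB hs hU hqJ hF₀ hlf
  obtain ⟨t, ht⟩ := onto (by omega) hU hqJ hF₀ hUu hn1 hdrop hlarge hlinked hk
    fun I' hI' => by have := hmax e e' I' hs hI'; omega
  set y := y₀ + t • x with hy
  have hFy : Frame l x y := ⟨hl, hF₀.hx,
    hF₀.hy.add ((homogeneousSubmodule (Fin 3) K 1).smul_mem t hF₀.hx), fun k => by
      refine (Submodule.span_le.2 ?_) (hF₀.span k)
      rintro z (rfl | rfl | rfl)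
      · exact Submodule.subset_span (by simp)
      · exact Submodule.subset_span (by simp)
      · have h1 : y ∈ Submodule.span K {l, x, y} := Submodule.subset_span (by simp)
        have h2 : x ∈ Submodule.span K {l, x, y} := Submodule.subset_span (by simp)
        have := sub_mem h1 ((Submodule.span K {l, x, y}).smul_mem t h2)
        rwa [hy, add_sub_cancel_right] at this⟩
  have hacty : act y = act y₀ + t • act x := by rw [hy, act_add, act_smul]
  have h1 : levs l x y U 1 = U.map (act l) ⊔ U.map (act y) := by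
    refine le_antisymm (sup_le (sup_le le_sup_left ?_) le_sup_right)
      (sup_le (le_sup_left.trans le_sup_left) le_sup_right)
    change U.map (act x) ≤ _
    rw [hacty, ← ht]
    exact le_sup_right.trans le_sup_left
  set z : Fin 3 → K := fun k => v k - t * w k with hz
  have hlin : ∀ p : MvPolynomial (Fin 3) K, p.IsHomogeneous 1 →
      eval z p = eval v p - t * eval w p := fun p hp => by
    obtain ⟨cp, rfl⟩ := exists_linear hp
    simp only [map_sum, smul_eval, eval_X, z, Finset.mul_sum, ← Finset.sum_sub_distrib]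
    exact Finset.sum_congr rfl fun k _ => by ring
  have hzl : eval z l = 0 := by rw [hlin l hl, hvl, hwl]; ring
  have hzx : eval z x = 1 := by rw [hlin x hF₀.hx, hvx, hwx]; ring
  have hzy : eval z y = 0 := by
    rw [hy, map_add, smul_eval, hzx, hlin _ hF₀.hy, hvy, hwy]; ring
  have hn1' : finrank K (levs l x y U 1) = h := by rw [← hilb_ann hFy hU rfl, hJh']
  -- falling gains
  obtain ⟨δ, hδ⟩ : ∃ δ, c' + δ = C + 1 := ⟨C + 1 - c', by omega⟩
  have hgain := falling (δ := δ) ha hm hd hT hB hC hU hqJ hFy hzl hzx hzy h1 hUu hn1' hdrop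
    hlarge hgd hgT hgJ hlg hab' (by omega)
  set n := fun i => finrank K (levs l x y U i) with hn
  refine ⟨U, hU, hqJ, hJu, hJh', ?_, ?_⟩
  · rintro k rfl
    rw [show hilb J (C + k) = n 2 from hilb_ann hFy hU (by omega)]
    have : n 2 + 1 + u ≤ n 1 + h := hgain 1 (by omega)
    have : n 1 = h := hn1'
    omega
  intro he0
  subst he0
  obtain ⟨hlow1, hlow2⟩ := chain_lower (n := n) (u := u) (h := h) (δ := δ) (ε := ε) (by omega)
    fun i hi => hgain i (by omega)
  -- the rise at the third degree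
  obtain ⟨t', rfl⟩ : ∃ t', c' = t' + 1 := ⟨c' - 1, by omega⟩
  obtain ⟨A', rfl⟩ : ∃ A', a' = A' + 1 := ⟨a' - 1, by omega⟩
  obtain ⟨B', rfl⟩ : ∃ B', b' = B' + 1 := ⟨b' - 1, by omega⟩
  have hW : hilb J t' = n (δ + 1) := hilb_ann hFy hU (by omega)
  have hW' : hilb J (t' + 1) = n δ := hilb_ann hFy hU (by omega)
  rw [Nat.add_sub_cancel] at hI₀eq
  have hlow := Tern.pair_low (f := g) (b := ![A' + 1, B' + 1])
    (fun i => by fin_cases i <;> simp) (show A' + 1 ≤ B' + 1 from hab') hgd hgT hI₀h hgI₀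
  simp only [Matrix.cons_val_zero, Matrix.cons_val_one, Nat.add_sub_cancel] at hlow
  obtain ⟨hn', hcount⟩ := low_count (t := t') (W := n (δ + 1)) (δ := δ + ε) (by omega) (by omega)
    hlow (by omega) (by omega)
  refine ⟨by omega, (compare (by omega) (by omega) (by omega) (by omega) (by omega) hn' hcount hlow2).trans_eq ?_⟩
  rw [show n 1 = h from hn1']

end Vale.Agent.P200.Chain
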