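import Vale.Agent.P200.Chain.Pencil
import Vale.Agent.P200.Chain.Curve

/-!
P200: along the chain of contractions the gain in dimension drops by at least one in each step.
-/

noncomputable section

namespace Vale.Agent.P200.Chain

open Module

variable {K W : Type*} [Field K] [AddCommGroup W] [Module K W]

/-- The chain of images. -/
def lev (L X Y : Module.End K W) (U : Submodule K W) : ℕ → Submodule K W
  | 0 => U
  | i + 1 => next L X Y (lev L X Y U i)

variable (L X Y : Module.End K W) (U : Submodule K W)

instance [FiniteDimensional K U] (i : ℕ) : FiniteDimensional K (lev L X Y U i) := by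
  induction i with
  | zero => assumption
  | succ i ih => rw [lev]; infer_instance

variable {L X Y U}

/-- One member of the pencil completes `L` all along the chain. -/
lemma lev_succ (hLX : Commute L X) (hXY : Commute X Y)
    (h1 : lev L X Y U 1 = U.map L ⊔ U.map Y) (i : ℕ) :
    lev L X Y U (i + 1) = (lev L X Y U i).map L ⊔ (lev L X Y U i).map Y := by
  induction i with
  | zero => exact h1
  | succ i ih =>
    refine le_antisymm (sup_le (sup_le le_sup_left ?_) le_sup_right)
      (sup_le (le_sup_left.trans le_sup_left) le_sup_right)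
    conv_lhs => rw [ih, Submodule.map_sup, ← Submodule.map_comp, ← Submodule.map_comp,
      ← Module.End.mul_eq_comp, ← Module.End.mul_eq_comp, ← hLX.eq, hXY.eq,
      Module.End.mul_eq_comp, Module.End.mul_eq_comp, Submodule.map_comp, Submodule.map_comp]
    exact sup_le_sup (Submodule.map_mono (le_sup_right.trans le_sup_left))
      (Submodule.map_mono (le_sup_right.trans le_sup_left))

variable [FiniteDimensional K U]

lemma finrank_ker_add (S : Submodule K W) [FiniteDimensional K S] (f : Module.End K W) :
    finrank K (S.map f) + finrank K ↥(S ⊓ LinearMap.ker f) = finrank K S := by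
  have h := LinearMap.finrank_range_add_finrank_ker (f.domRestrict S)
  rwa [LinearMap.range_domRestrict, ← Submodule.finrank_map_subtype_eq S,
    LinearMap.ker_domRestrict, Submodule.map_comap_subtype] at h

/-- The new part does not grow. -/
lemma new_le (hLX : Commute L X) (hLY : Commute L Y) (hXY : Commute X Y)
    (h1 : lev L X Y U 1 = U.map L ⊔ U.map Y) (i : ℕ) :
    finrank K (lev L X Y U (i + 2)) + finrank K ((lev L X Y U i).map L) ≤
      finrank K (lev L X Y U (i + 1)) + finrank K ((lev L X Y U (i + 1)).map L) := by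
  set N := lev L X Y U i
  set M := lev L X Y U (i + 1) with hM
  have hle : N.map L ≤ M := le_sup_left.trans le_sup_left
  obtain ⟨C, hC⟩ := Submodule.exists_isCompl ((N.map L).comap M.subtype)
  set C' := C.map M.subtype
  have hsup : M = N.map L ⊔ C' := by
    conv_lhs => rw [← Submodule.map_subtype_top M, ← hC.sup_eq_top, Submodule.map_sup,
      Submodule.map_comap_subtype, inf_eq_right.2 hle]
  have hdim : finrank K (N.map L) + finrank K C' = finrank K M := by
    rw [Submodule.finrank_map_subtype_eq, ← Submodule.finrank_add_eq_of_isCompl hC,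
      (Submodule.comapSubtypeEquivOfLe hle).finrank_eq]
  have hn : lev L X Y U (i + 2) ≤ M.map L ⊔ C'.map Y := by
    rw [lev_succ hLX hXY h1 (i + 1), ← hM]
    refine sup_le le_sup_left ?_
    nth_rw 1 [hsup]
    rw [Submodule.map_sup]
    refine sup_le ?_ le_sup_right
    rw [← Submodule.map_comp, ← Module.End.mul_eq_comp, ← hLY.eq, Module.End.mul_eq_comp,
      Submodule.map_comp]
    exact le_sup_of_le_left (Submodule.map_mono (le_sup_right.trans le_rfl))
  have : FiniteDimensional K C' := Submodule.finiteDimensional_of_le (Submodule.map_subtype_le M C)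
  have h2 := Submodule.finrank_mono hn
  have h3 := Submodule.finrank_add_le_finrank_add_finrank (M.map L) (C'.map Y)
  have h4 := Submodule.finrank_map_le Y C'
  omega

variable [IsAlgClosed K]

omit [FiniteDimensional K U] in
/-- A kernel of `L` grows by at least one. -/
lemma ker_grow (hLX : Commute L X) (hLY : Commute L Y) {N : Submodule K W} [FiniteDimensional K N]
    (hne : N ⊓ LinearMap.ker L ≠ ⊥)
    (hkill : ∀ φ ∈ N, L φ = 0 → (X φ = 0 ∨ ∃ r : K, Y φ = r • X φ) → φ = 0) :
    finrank K ↥(N ⊓ LinearMap.ker L) < finrank K ↥(next L X Y N ⊓ LinearMap.ker L) := by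
  set K0 := N ⊓ LinearMap.ker L
  set K1 := next L X Y N ⊓ LinearMap.ker L
  have hmap : ∀ Z : Module.End K W, Commute L Z → N.map Z ≤ next L X Y N → K0.map Z ≤ K1 := by
    rintro Z hZ hle _ ⟨φ, ⟨hφ, hφ0⟩, rfl⟩
    refine ⟨hle (Submodule.mem_map_of_mem hφ), ?_⟩
    rw [SetLike.mem_coe, LinearMap.mem_ker, ← Module.End.mul_apply, hZ.eq, Module.End.mul_apply,
      LinearMap.mem_ker.1 hφ0, map_zero]
  have hX := hmap X hLX (le_sup_right.trans le_sup_left)
  have hY := hmap Y hLY le_sup_right
  have : FiniteDimensional K K0 := Submodule.finiteDimensional_of_le inf_le_left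
  have : FiniteDimensional K K1 := Submodule.finiteDimensional_of_le inf_le_left
  set f := X.domRestrict K0
  have hf : LinearMap.ker f = ⊥ := LinearMap.ker_eq_bot'.2 fun z hz =>
    Subtype.ext (hkill _ z.2.1 z.2.2 (Or.inl hz))
  have hfr : finrank K (K0.map X) = finrank K K0 := by
    rw [← LinearMap.range_domRestrict]
    exact LinearMap.finrank_range_of_inj (LinearMap.ker_eq_bot.1 hf)
  by_contra hcon
  have heq : K0.map X = K1 := Submodule.eq_of_le_of_finrank_le hX (by omega)
  obtain ⟨k, hk⟩ := exists_factor f hf (Y.domRestrict K0) fun z => by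
    rw [LinearMap.range_domRestrict, heq]
    exact hY (Submodule.mem_map_of_mem z.2)
  have : Nontrivial K0 := Submodule.nontrivial_iff_ne_bot.2 hne
  obtain ⟨r, hr⟩ := Module.End.exists_eigenvalue k
  obtain ⟨z, hz⟩ := hr.exists_hasEigenvector
  refine hz.2 (Subtype.ext (hkill _ z.2.1 z.2.2 (Or.inr ⟨r, ?_⟩)))
  have := hk z
  rw [hz.apply_eq_smul, map_smul] at this
  exact this.symm

/-- The gain drops by at least one in each step. -/
theorem gain (hLX : Commute L X) (hLY : Commute L Y) (hXY : Commute X Y)
    (h1 : lev L X Y U 1 = U.map L ⊔ U.map Y) {e i₁ : ℕ}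
    (hDe : finrank K (lev L X Y U 1) ≤ finrank K U + e)
    (hkill : ∀ i, i < i₁ → ∀ φ ∈ lev L X Y U i, L φ = 0 →
      (X φ = 0 ∨ ∃ r : K, Y φ = r • X φ) → φ = 0)
    (hplat : ∀ i, i ≤ e → ∀ δ, δ + i + finrank K U ≤ finrank K (lev L X Y U 1) →
      (∀ φ ∈ lev L X Y U i, L φ = 0 → φ = 0) →
      finrank K (lev L X Y U (i + 1)) = finrank K (lev L X Y U i) + δ →
      finrank K (lev L X Y U (i + 2)) = finrank K (lev L X Y U (i + 1)) + δ → False) :
    ∀ i ≤ i₁, finrank K (lev L X Y U (i + 1)) + i + finrank K U ≤
      finrank K (lev L X Y U i) + finrank K (lev L X Y U 1) := by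
  intro i hi
  induction i with
  | zero =>
    show finrank K (lev L X Y U 1) + 0 + finrank K U ≤ finrank K U + finrank K (lev L X Y U 1)
    omega
  | succ i ih =>
    have ih := ih (by omega)
    show finrank K (lev L X Y U (i + 2)) + (i + 1) + finrank K U ≤ _
    have hnew := new_le hLX hLY hXY h1 i
    have e0 := finrank_ker_add (lev L X Y U i) L
    have e1 := finrank_ker_add (lev L X Y U (i + 1)) L
    by_cases hk : lev L X Y U i ⊓ LinearMap.ker L = ⊥
    swap
    · have hg : finrank K ↥(lev L X Y U i ⊓ LinearMap.ker L) <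
          finrank K ↥(lev L X Y U (i + 1) ⊓ LinearMap.ker L) :=
        ker_grow hLX hLY hk (hkill i (by omega))
      omega
    rw [hk, finrank_bot] at e0
    by_cases hk' : lev L X Y U (i + 1) ⊓ LinearMap.ker L = ⊥
    swap
    · have : 0 < finrank K ↥(lev L X Y U (i + 1) ⊓ LinearMap.ker L) := by
        have : FiniteDimensional K ↥(lev L X Y U (i + 1) ⊓ LinearMap.ker L) :=
          Submodule.finiteDimensional_of_le inf_le_left
        exact Nat.pos_of_ne_zero fun h => hk' (Submodule.finrank_eq_zero.1 h)
      omega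
    rw [hk', finrank_bot] at e1
    by_contra hcon
    have hle : (lev L X Y U i).map L ≤ lev L X Y U (i + 1) := le_sup_left.trans le_sup_left
    have h5 := Submodule.finrank_mono hle
    refine hplat i ?_ (finrank K (lev L X Y U (i + 1)) - finrank K (lev L X Y U i)) ?_
      (fun φ hφ h => (Submodule.eq_bot_iff _).1 hk φ ⟨hφ, h⟩) ?_ ?_
    all_goals omega

end Vale.Agent.P200.Chain
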