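import Vale.Agent.P200.Chain.Side
import Vale.Agent.P200.Slope.Gain

/-!
P200: for a failure as extreme as possible the value in the lower degree is forced up (by induction
on the step), and the drop `h - u` is not positive: two independent linear forms carry the inverse
system onto its first contraction, and so the second gain is too small.
-/

noncomputable section

namespace Vale.Agent.P200.Chain

open MvPolynomial Module Finset Deg Quint Growth

section

variable {A B C e e' : ℕ}

lemma two_tops (he : e ≤ B) (n : ℕ) :
    2 * (tops (B + 1) e n : ℤ) = n * (2 * B - 2 * e - 1 + n) := by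
  induction n with
  | zero => simp [tops_zero]
  | succ n ih =>
    rw [tops_succ, show B + 1 - (e + 1) + n = B - e + n by omega]
    push_cast [he]
    linear_combination ih

lemma tops_shift (he : e + 1 ≤ B) (n : ℕ) :
    tops (B + 1) (e + 1) n + n = tops (B + 1) e n := by
  have h1 := two_tops he n
  have h2 := two_tops (e := e) (B := B) (by omega) n
  push_cast at h1
  have : 2 * ((tops (B + 1) (e + 1) n : ℤ) + n) = 2 * tops (B + 1) e n := by
    linear_combination h1 - h2
  omega

lemma tops_lt {m m' : ℕ} (he : e < B) (h : m < m') :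
    tops (B + 1) e m < tops (B + 1) e m' :=
  sum_lt_sum_of_subset (range_subset_range.2 h.le) (i := m) (mem_range.2 h) (by simp)
    (by omega) fun _ _ _ => Nat.zero_le _

/-- A slice `e` past `C`. -/
lemma two_slice (hA : A ≤ B) (hBC : B ≤ C) (hs : A + B = C + 1 + e + e') :
    2 * (slice A B C (C + e) : ℤ) =
      2 * (A + 1) * (B + 1) - e * (e + 1) - (e' + 1) * (e' + 2) := by
  have := card_mid (A := A) (B := B) (C := C) (k := e) (k' := e' + 1) (by omega) (by omega)
    (by omega) (by omega) (by omega)
  change 2 * slice A B C (C + e) + _ + _ = _ at this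
  zify at this
  linear_combination this

/-- The two slices of a step. -/
lemma slice_step (hA : A ≤ B) (hBC : B ≤ C) (hs : A + B = C + 1 + e + e') :
    slice A B C (C + e + 1) + e = slice A B C (C + e) + e' := by
  have hH := card_mid (A := A) (B := B) (C := C) (k := e + 1) (k' := e') (by omega) (by omega)
    (by omega) (by omega) (by omega)
  change 2 * slice A B C (C + e + 1) + _ + _ = _ at hH
  have h := two_slice hA hBC hs
  zify at hH
  have : 2 * ((slice A B C (C + e + 1) : ℤ) + e) = 2 * (slice A B C (C + e) + e') := by
    linear_combination hH - h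
  omega

/-- Both full rows of tops leave room in a slice. -/
lemma two_tops_le (hA : A ≤ B) (hBC : B ≤ C) (hs : A + B = C + 1 + e + e') :
    tops (B + 1) e (e + 1) + tops (B + 1) e' (e' + 1) + (e + 1) ≤ slice A B C (C + e) := by
  have h1 := two_tops (e := e) (B := B) (by omega) (e + 1)
  have h2 := two_tops (e := e') (B := B) (by omega) (e' + 1)
  have h3 := two_slice hA hBC hs
  push_cast at h1 h2
  have hA' : (A : ℤ) + B = C + 1 + e + e' := by exact_mod_cast hs
  have hBC' : (B : ℤ) ≤ C := by exact_mod_cast hBC
  zify
  nlinarith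

/-- One step down from a failure that is not one. -/
lemma back (hA : A ≤ B) (hBC : B ≤ C) (hs : A + B = C + 1 + (e + 1) + e') {p h k : ℕ}
    (hp : p + k ≤ h + e)
    (hno : slice A B C (C + e) ≤ p + tops (B + 1) (e' + 1) (p + (e' + 1) - (h + e))) :
    slice A B C (C + (e + 1)) ≤ h + tops (B + 1) e' (e' + 1 - k) := by
  have h1 := slice_step hA hBC (show A + B = C + 1 + e + (e' + 1) by omega)
  have h2 := tops_mono (b := B + 1) (e := e' + 1)
    (show p + (e' + 1) - (h + e) ≤ e' + 1 - k by omega)
  have h3 := tops_shift (e := e') (B := B) (by omega) (e' + 1 - k)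
  rw [← Nat.add_assoc]
  omega

end

variable {K : Type*} [Field K] [IsAlgClosed K] {a : Fin 3 → ℕ}
  {q : Fin 3 → MvPolynomial (Fin 3) K} {A B C ε : ℕ}

omit [IsAlgClosed K] in
/-- The step below a failure fails as well, unless the value there is large. -/
lemma before (hAB : A ≤ B) (hBC : B ≤ C) {e e' : ℕ} (hs : A + B = C + 1 + (e + 1) + e')
    {J : Ideal (MvPolynomial (Fin 3) K)} (hJh : Homog J) (hJq : ∀ i, q i ∈ J) {p h u : ℕ}
    (hp : hilb J (C + e) = p) (hh : hilb J (C + (e + 1)) = h)
    (hdrop : h ≤ u + (e + 1)) (hlarge : tops (B + 1) (e + 1) (h - u) < u)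
    (hgain : p + 1 + u ≤ 2 * h) :
    Fails q A B C e (e' + 1) J ∨
      slice A B C (C + e) ≤ p + tops (B + 1) (e' + 1) (p + (e' + 1) - (h + e)) := by
  rw [← Nat.add_assoc] at hh
  refine or_iff_not_imp_right.2 fun hno => ⟨hJh, hJq, by omega, ?_, ?_⟩
  · rw [hp, hh]
    rcases Nat.eq_zero_or_pos (h - u) with h0 | h0
    · rw [show p - h = 0 by omega, tops_zero]
      omega
    · have h1 := tops_mono (b := B + 1) (e := e) (show p - h ≤ h - u - 1 by omega)
      have h2 := tops_shift (e := e) (B := B) (by omega) (h - u - 1)
      have h3 := tops_mono (b := B + 1) (e := e + 1) (show h - u - 1 ≤ h - u by omega)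
      omega
  · rw [hp, hh]
    omega

/-- The value in the lower degree of an extreme failure. -/
theorem extreme_low (ha : ∀ i, 1 ≤ a i) (hm : Monotone a) (hd : ∀ i, (q i).IsHomogeneous (a i))
    (hT : Tall q) (hA : a 0 = A + 1) (hB : a 1 = B + 1) (hC : a 2 = C + 1)
    (hmax : Top q A B C ε) :
    ∀ e e' (I : Ideal (MvPolynomial (Fin 3) K)), A + B = C + 1 + e + e' → Fails q A B C e e' I →
      e + hilb I (C + e + 1) = hilb I (C + e) + ε →
      slice A B C (C + e) < hilb I (C + e) + tops (B + 1) e' (e + e' + 1 - ε) := by
  have hAB : A ≤ B := by have : a 0 ≤ a 1 := hm (by decide); omega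
  have hBC : B ≤ C := by have : a 1 ≤ a 2 := hm (by decide); omega
  intro e
  induction e with
  | zero =>
    intro e' I hs hF hε
    obtain ⟨U, -, -, -, -, -, hrise⟩ := side ha hm hd hT hA hB hC hs hF hmax hε
    obtain ⟨hεe, hr⟩ := hrise rfl
    have h3 := two_slice hAB hBC hs
    have h2 := two_tops (e := e') (B := B) (by omega) (0 + e' + 1 - ε)
    push_cast [show ε ≤ 0 + e' + 1 by omega] at h2
    have hA' : (A : ℤ) = C + 1 + e' - B := by omega
    zify [show B ≤ C + 1 + ε by omega] at hr
    push_cast at h3
    rw [hA'] at h3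
    zify
    linarith
  | succ e ih =>
    intro e' I hs hF hε
    obtain ⟨U, hU, hqJ, hJu, hJh, hfall, -⟩ := side ha hm hd hT hA hB hC hs hF hmax hε
    have hdrop := hF.drop
    have hlarge := hF.large
    have hgain := hfall e rfl
    have hlinked := hF.linked
    rcases before hAB hBC hs (homog_ann hU) hqJ rfl hJh hdrop hlarge hgain with hf | hno
    · have hs' : A + B = C + 1 + e + (e' + 1) := by omega
      have htop := hmax e (e' + 1) _ hs' hf
      rw [← Nat.add_assoc] at hJh hε hgain hlinked ⊢
      have h1 := ih (e' + 1) _ hs' hf (by omega)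
      have h2 := tops_shift (e := e') (B := B) (by omega) (e + 1 + e' + 1 - ε)
      have h3 := slice_step hAB hBC hs'
      rw [show e + (e' + 1) + 1 - ε = e + 1 + e' + 1 - ε by omega] at h1
      omega
    · have h1 := back (k := ε) hAB hBC hs (by omega) hno
      rcases Nat.eq_zero_or_pos (e + 1 + e' + 1 - ε) with h0 | h0
      · rw [show e' + 1 - ε = 0 by omega, tops_zero] at h1
        omega
      · have := tops_lt (e := e') (B := B) (m := e' + 1 - ε) (m' := e + 1 + e' + 1 - ε) (by omega)
          (by omega)
        omega

/-- Linear forms as contractions. -/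
def forms (K : Type*) [Field K] : (Fin 3 → K) →ₗ[K] Module.End K (Fun K 3) :=
  Fintype.linearCombination K fun k => act (X k)

omit [IsAlgClosed K] in
lemma forms_apply (c : Fin 3 → K) : forms K c = act (∑ k, c k • X k) := by
  simp [forms, Fintype.linearCombination_apply, act_sum, act_smul]

omit [IsAlgClosed K] in
lemma img_forms (U : Submodule K (Fun K 3)) :
    Slope.img (forms K) U = next (act (X 0)) (act (X 1)) (act (X 2)) U := by
  simp [Slope.img, forms, Fintype.linearCombination_apply_single]

/-- An extreme failure has no positive drop. -/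
theorem extreme_small (ha : ∀ i, 1 ≤ a i) (hm : Monotone a) (hd : ∀ i, (q i).IsHomogeneous (a i))
    (hT : Tall q) (hA : a 0 = A + 1) (hB : a 1 = B + 1) (hC : a 2 = C + 1)
    (hmax : Top q A B C ε) :
    ∀ e e' (I : Ideal (MvPolynomial (Fin 3) K)), A + B = C + 1 + e + e' → Fails q A B C e e' I →
      e + hilb I (C + e + 1) = hilb I (C + e) + ε → e ≤ ε := by
  classical
  have hAB : A ≤ B := by have : a 0 ≤ a 1 := hm (by decide); omega
  have hBC : B ≤ C := by have : a 1 ≤ a 2 := hm (by decide); omega
  intro e
  induction e with
  | zero => exact fun _ _ _ _ _ => Nat.zero_le _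
  | succ e ih =>
    intro e' I hs hF hε
    induction hN : hilb I (C + (e + 1) + 1) using Nat.strong_induction_on generalizing I with
    | _ u inner =>
    obtain ⟨U, hU, hqJ, hJu, hJh, hfall, -⟩ := side ha hm hd hT hA hB hC hs hF hmax hε
    have : FiniteDimensional K U := Submodule.finiteDimensional_of_le hU
    have hdrop := hF.drop
    have hlarge := hF.large
    have hlinked := hF.linked
    have hgain := hfall e rfl
    rw [hN] at hε hdrop hlarge hlinked hgain hJu
    generalize hh : hilb I (C + (e + 1)) = h at hε hdrop hlarge hlinked hgain hJh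
    by_contra hcon
    obtain ⟨D, hD⟩ : ∃ D, h = u + (D + 1) := ⟨h - u - 1, by omega⟩
    rw [show h - u = D + 1 by omega] at hlarge
    have hsa : A + B = C + 1 + e + (e' + 1) := by omega
    have hgood := two_tops_le hAB hBC hs
    rcases Nat.lt_or_ge (tops (B + 1) (e + 1) (D + 1) + 1) u with hbig | hsmall
    swap
    · rcases before hAB hBC hs (homog_ann hU) hqJ rfl hJh hdrop
        (by rwa [show h - u = D + 1 by omega]) hgain with hf | hno
      · have htop := hmax e (e' + 1) _ hsa hf
        rw [← Nat.add_assoc] at hJh
        have h1 := ih (e' + 1) _ hsa hf (by omega)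
        have h2 := extreme_low ha hm hd hT hA hB hC hmax e (e' + 1) _ hsa hf (by omega)
        obtain rfl : e = ε := by omega
        obtain rfl : D = 0 := by omega
        rw [show e + (e' + 1) + 1 - e = e' + 2 by omega] at h2
        have h3 := two_slice hAB hBC hsa
        have h4 := two_tops (e := e' + 1) (B := B) (by omega) (e' + 2)
        have h5 := two_tops (e := e + 1) (B := B) (by omega) (0 + 1)
        have hp : hilb (ann U) (C + e) ≤ h := by omega
        push_cast at h3 h4 h5
        have hA' : (A : ℤ) = C + 2 + e + e' - B := by omega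
        have hBC' : (0 : ℤ) ≤ (C - B) * (B + 1) := mul_nonneg (by omega) (by positivity)
        have he' : (0 : ℤ) ≤ e * ((B : ℤ) - e) := mul_nonneg (by positivity) (by omega)
        zify at h2 hp hD hsmall
        push_cast at h2 hp hD hsmall
        rw [hA'] at h3
        linarith [mul_self_nonneg (e : ℤ)]
      · have h1 := back (k := ε) hAB hBC hs (by omega) hno
        have h2 := tops_mono (b := B + 1) (e := e') (show e' + 1 - ε ≤ e' + 1 by omega)
        have h3 := tops_lt (e := e + 1) (B := B) (m := D + 1) (m' := e + 1 + 1) (by omega) (by omega)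
        omega
    -- two forms carry the inverse system onto its contraction
    have hF0 : Frame (X 0 : MvPolynomial (Fin 3) K) (X 1) (X 2) :=
      ⟨isHomogeneous_X K 0, isHomogeneous_X K 1, isHomogeneous_X K 2, fun k =>
        Submodule.subset_span (by fin_cases k <;> simp)⟩
    have hlev1 : Slope.img (forms K) U = levs (X 0) (X 1) (X 2) U 1 := img_forms U
    have hlev2 : Slope.img (forms K) (Slope.img (forms K) U) = levs (X 0) (X 1) (X 2) U 2 := by
      rw [hlev1, img_forms]; rfl
    have hn0 : finrank K U = u := (hilb_ann hF0 hU (i := 0) (Nat.add_zero _)).symm.trans hJu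
    have hn1 : finrank K (Slope.img (forms K) U) = h := by
      rw [hlev1, ← hilb_ann hF0 hU (t := C + (e + 1)) rfl, hJh]
    have hfr : ∀ {p r s : Fin 3 → K}, Slope.Sp p r s →
        Frame (∑ k, p k • X k) (∑ k, r k • X k) (∑ k, s k • X k : MvPolynomial (Fin 3) K) := by
      intro p r s hsp
      have hh : ∀ c : Fin 3 → K, (∑ k, c k • X k : MvPolynomial (Fin 3) K).IsHomogeneous 1 :=
        fun c => IsHomogeneous.sum _ _ _ fun k _ =>
          (homogeneousSubmodule (Fin 3) K 1).smul_mem _ (isHomogeneous_X K k)
      refine ⟨hh p, hh r, hh s, fun k => ?_⟩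
      obtain ⟨x, y, z, hz⟩ := hsp (Pi.single k 1)
      have hX : (X k : MvPolynomial (Fin 3) K) =
          x • (∑ j, p j • X j) + y • (∑ j, r j • X j) + z • (∑ j, s j • X j) := by
        simp only [Finset.smul_sum, smul_smul, ← Finset.sum_add_distrib, ← add_smul]
        rw [Finset.sum_congr rfl (g := fun j => (Pi.single k 1 : Fin 3 → K) j • X j) fun j _ => by
          rw [hz]; simp]
        simp [Pi.single_apply, ite_smul]
      rw [hX]
      exact add_mem (add_mem (Submodule.smul_mem _ _ (Submodule.subset_span (by simp)))
        (Submodule.smul_mem _ _ (Submodule.subset_span (by simp))))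
        (Submodule.smul_mem _ _ (Submodule.subset_span (by simp)))
    have hpair : ∀ p r s, Slope.Sp p r s →
        Slope.img (forms K) U = U.map (forms K p) ⊔ U.map (forms K r) := by
      intro p r s hsp
      refine le_antisymm ?_ (sup_le (Slope.map_le_img p U) (Slope.map_le_img r U))
      intro w hw
      by_contra hwn
      obtain ⟨z, hzw, hz⟩ := Submodule.exists_dual_map_eq_bot_of_notMem hwn inferInstance
      have hz0 : ∀ φ ∈ U, z (forms K p φ) = 0 ∧ z (forms K r φ) = 0 := by
        intro φ hφ
        have h0 : ∀ x ∈ U.map (forms K p) ⊔ U.map (forms K r), z x = 0 := fun x hx =>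
          (Submodule.eq_bot_iff _).1 hz _ (Submodule.mem_map_of_mem hx)
        exact ⟨h0 _ (Submodule.mem_sup_left (Submodule.mem_map_of_mem hφ)),
          h0 _ (Submodule.mem_sup_right (Submodule.mem_map_of_mem hφ))⟩
      set ψ := (z.comp (forms K s)).domRestrict U
      set U' := (LinearMap.ker ψ).map U.subtype
      have hU'U : U' ≤ U := Submodule.map_subtype_le _ _
      have hU' : U' ≤ supp K 3 (C + (e + 1) + 1) := hU'U.trans hU
      have : FiniteDimensional K U' := Submodule.finiteDimensional_of_le hU'
      have hker : u ≤ finrank K U' + 1 ∧ finrank K U' ≤ u := by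
        rw [Submodule.finrank_map_subtype_eq]
        have h1 := LinearMap.finrank_range_add_finrank_ker (V := U) (V₂ := K) ψ
        have h2 := Submodule.finrank_le (LinearMap.range ψ)
        rw [Module.finrank_self] at h2
        omega
      have hN1 : finrank K (Slope.img (forms K) U') < finrank K (Slope.img (forms K) U) := by
        refine Submodule.finrank_lt_finrank_of_lt (lt_of_le_of_ne ?_ fun e => ?_)
        · simp only [Slope.img]
          exact next_mono _ _ _ hU'U
        · have hle : Slope.img (forms K) U' ≤ LinearMap.ker z := by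
            have key : ∀ c, U'.map (forms K c) ≤ LinearMap.ker z := by
              rintro c _ ⟨_, ⟨φ, hφ, rfl⟩, rfl⟩
              obtain ⟨x, y, t, rfl⟩ := hsp c
              obtain ⟨h1, h2⟩ := hz0 φ.1 φ.2
              have h3 : z (forms K s φ.1) = 0 := LinearMap.mem_ker.1 hφ
              simp [h1, h2, h3]
            exact sup_le (sup_le (key _) (key _)) (key _)
          exact hzw (hle (e ▸ hw))
      have hu' := hilb_ann hF0 hU' (i := 0) (Nat.add_zero _)
      have hh' := hilb_ann hF0 hU' (i := 1) (t := C + (e + 1)) rfl
      change hilb (ann U') (C + (e + 1) + 1) = finrank K U' at hu'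
      rw [show levs (X 0) (X 1) (X 2) U' 1 = Slope.img (forms K) U' from (img_forms U').symm] at hh'
      generalize finrank K (Slope.img (forms K) U') = h' at hN1 hh'
      generalize finrank K U' = u' at hker hu'
      rw [hn1] at hN1
      have hf : Fails q A B C (e + 1) e' (ann U') := by
        refine ⟨homog_ann hU', fun i => ann_anti hU'U (hqJ i), by omega, ?_, ?_⟩
        · rw [hu', hh']
          have := tops_mono (b := B + 1) (e := e + 1) (show h' - u' ≤ D + 1 by omega)
          omega
        · rw [hu', hh']
          have := tops_mono (b := B + 1) (e := e')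
            (show h' + e' - (u' + (e + 1)) ≤ h + e' - (u + (e + 1)) by omega)
          omega
      have htop := hmax _ _ _ hs hf
      exact hcon (inner u' (by omega) _ hf (by omega) hu')
    have hgd := Slope.gain_drop (o := forms K)
      (fun x y => by rw [forms_apply, forms_apply]; exact act_comm _ _) hpair
      (fun p r s hsp φ hφ hp hr => by
        by_contra h0
        rw [forms_apply] at hp hr
        exact eigen_false hd hT (fun k => (hm (Fin.le_last k)).trans
          (show a 2 ≤ C + (e + 1) + 1 by omega)) (by omega) (hU hφ) h0 (fun k => hqJ k φ hφ)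
          (hfr hsp) (hfr hsp).hy (r₀ := 0) (r₁ := 0) (r₂ := 1)
          (hp.trans (zero_smul _ _).symm) (hr.trans (zero_smul _ _).symm) (one_smul _ _).symm)
      hn0 (hn1.trans hD) (Nat.succ_pos D)
    rw [hn1, hlev2, ← hilb_ann hF0 hU (t := C + e) (by omega)] at hgd
    rcases before hAB hBC hs (homog_ann hU) hqJ rfl hJh hdrop
      (by rwa [show h - u = D + 1 by omega]) hgain with hf | hno
    · have := hmax e (e' + 1) _ hsa hf
      rw [← Nat.add_assoc] at hJh
      omega
    · have h1 := back (k := ε + 1) hAB hBC hs (by omega) hno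
      rw [show h + e' - (u + (e + 1)) = e' + 1 - (ε + 1) by omega] at hlinked
      omega

end Vale.Agent.P200.Chain
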